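import Crest.Agent.N222.F.Defs

/-!
# Row 222, framework: charts, smooth functions, tangential derivative
(statements by helper10, proofs by helper51)
-/

set_option autoImplicit false
set_option linter.unusedSectionVars false
open MeasureTheory Set Filter Topology Function
open scoped ContDiff InnerProductSpace RealInnerProductSpace

noncomputable section

namespace Crest.Agent.N222

variable {d : ℕ} {ι : Type} [Fintype ι] {X : Type} [TopologicalSpace X]

/-! ### linear algebra -/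

section LA

variable {J : E (Fin d) →L[ℝ] E ι}

theorem isUnit_gram (hJ : Injective J) : IsUnit (ContinuousLinearMap.adjoint J ∘L J) := by
  rw [ContinuousLinearMap.isUnit_iff_bijective]
  have h : Injective (ContinuousLinearMap.adjoint J ∘L J) := by
    refine (injective_iff_map_eq_zero _).2 fun v hv => ?_
    have h1 : ⟪J v, J v⟫ = 0 := by
      rw [← ContinuousLinearMap.adjoint_inner_left]
      simp only [ContinuousLinearMap.comp_apply] at hv
      rw [hv, inner_zero_left]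
    exact (injective_iff_map_eq_zero _).1 hJ v (inner_self_eq_zero.1 h1)
  exact ⟨h, (LinearMap.injective_iff_surjective
    (f := ((ContinuousLinearMap.adjoint J ∘L J : _ →L[ℝ] _) : E (Fin d) →ₗ[ℝ] E (Fin d)))).1 h⟩

theorem adj_Lam (J : E (Fin d) →L[ℝ] E ι) : ContinuousLinearMap.adjoint (Lam J) =
    Ring.inverse (ContinuousLinearMap.adjoint J ∘L J) ∘L ContinuousLinearMap.adjoint J := by
  rw [Lam, ContinuousLinearMap.adjoint_comp, ← ContinuousLinearMap.star_eq_adjoint,
    ← Ring.inverse_star, ContinuousLinearMap.star_eq_adjoint, ContinuousLinearMap.adjoint_comp,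
    ContinuousLinearMap.adjoint_adjoint]

/-- `Λᵀ J = 1` -/
theorem adj_Lam_apply (hJ : Injective J) (v : E (Fin d)) :
    ContinuousLinearMap.adjoint (Lam J) (J v) = v := by
  have h := Ring.inverse_mul_cancel _ (isUnit_gram hJ)
  rw [adj_Lam]
  exact congrArg (fun T : E (Fin d) →L[ℝ] E (Fin d) => T v) h

/-- `Λᵀ` kills the normal space -/
theorem adj_Lam_eq_zero {w : E ι} (hw : ∀ v, ⟪J v, w⟫ = 0) :
    ContinuousLinearMap.adjoint (Lam J) w = 0 := by
  have h : ContinuousLinearMap.adjoint J w = 0 := by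
    refine ext_inner_left ℝ fun v => ?_
    rw [ContinuousLinearMap.adjoint_inner_right, hw, inner_zero_right]
  rw [adj_Lam, ContinuousLinearMap.comp_apply, h, map_zero]

/-- `w - J Λᵀ w` is normal -/
theorem inner_sub_proj (hJ : Injective J) (v : E (Fin d)) (w : E ι) :
    ⟪J v, w - J (ContinuousLinearMap.adjoint (Lam J) w)⟫ = 0 := by
  have h := congrArg (fun T : E (Fin d) →L[ℝ] E (Fin d) => T (ContinuousLinearMap.adjoint J w))
    (Ring.mul_inverse_cancel _ (isUnit_gram hJ))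
  simp only [mul_apply_eq_comp, ContinuousLinearMap.comp_apply,
    one_apply_eq_self] at h
  rw [← ContinuousLinearMap.adjoint_inner_right, map_sub, adj_Lam, ContinuousLinearMap.comp_apply, h,
    sub_self, inner_zero_right]

/-- characterisation of `Λᵀ w` -/
theorem adj_Lam_eq_of (hJ : Injective J) {w : E ι} {u : E (Fin d)} (h : ∀ v, ⟪J v, w - J u⟫ = 0) :
    ContinuousLinearMap.adjoint (Lam J) w = u := by
  have h1 := adj_Lam_eq_zero h
  rwa [map_sub, adj_Lam_apply hJ, sub_eq_zero] at h1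

theorem jac_eq_normDet (J : E (Fin d) →L[ℝ] E ι) : jac J = (J : E (Fin d) →ₗ[ℝ] E ι).normDet := by
  have h := J.normDet_sq
  rw [jac, ← h]
  exact Real.sqrt_sq (LinearMap.normDet_nonneg _)

theorem contDiff_adjoint {κ : Type} [Fintype κ] : ContDiff ℝ ∞
    (fun T : E κ →L[ℝ] E ι => ContinuousLinearMap.adjoint T) :=
  IsBoundedLinearMap.contDiff ⟨⟨fun _ _ => map_add _ _ _, fun _ _ => by simp⟩, 1, one_pos,
    fun T => by simp⟩

theorem contDiff_gram : ContDiff ℝ ∞
    (fun J : E (Fin d) →L[ℝ] E ι => ContinuousLinearMap.adjoint J ∘L J) :=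
  contDiff_adjoint.clm_comp contDiff_id

theorem contDiff_det : ContDiff ℝ ∞ (fun T : E (Fin d) →L[ℝ] E (Fin d) => T.det) := by
  have h : ∀ T : E (Fin d) →L[ℝ] E (Fin d), T.det =
      ∑ σ : Equiv.Perm (Fin d), ((Equiv.Perm.sign σ : ℤ) : ℝ) * ∏ i, T (ee i) (σ i) := by
    intro T
    rw [ContinuousLinearMap.det, ← LinearMap.det_toMatrix (EuclideanSpace.basisFun (Fin d) ℝ).toBasis,
      Matrix.det_apply']
    simp [LinearMap.toMatrix_apply]
  simp only [h]
  refine ContDiff.sum fun σ _ => contDiff_const.mul (contDiff_prod fun i _ => ?_)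
  exact contDiff_euclidean.1 (contDiff_id.clm_apply contDiff_const) _

theorem eq_sum_ee [DecidableEq ι] (w : E ι) : w = ∑ a, w a • ee a := by
  simpa using ((EuclideanSpace.basisFun ι ℝ).sum_repr w).symm

theorem jac_pos (hJ : Injective J) : 0 < jac J := by
  rw [jac_eq_normDet]
  refine lt_of_le_of_ne (LinearMap.normDet_nonneg _) fun h => ?_
  exact LinearMap.normDet_eq_zero_iff_ker_ne_bot.1 h.symm (LinearMap.ker_eq_bot.2 hJ)

theorem contDiffAt_Lam (hJ : Injective J) : ContDiffAt ℝ ∞ (Lam : _ → E (Fin d) →L[ℝ] E ι) J := by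
  obtain ⟨u, hu⟩ := isUnit_gram hJ
  have h1 : ContDiffAt ℝ ∞ (Ring.inverse : (E (Fin d) →L[ℝ] E (Fin d)) → _)
      (ContinuousLinearMap.adjoint J ∘L J) := hu ▸ contDiffAt_ringInverse ℝ u
  have h2 : ContDiffAt ℝ ∞ (fun T : E (Fin d) →L[ℝ] E ι =>
      Ring.inverse (ContinuousLinearMap.adjoint T ∘L T)) J :=
    ContDiffAt.comp (g := Ring.inverse)
      (f := fun T : E (Fin d) →L[ℝ] E ι => ContinuousLinearMap.adjoint T ∘L T) J h1
      (contDiff_gram (d := d) (ι := ι)).contDiffAt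
  have h3 : ContDiffAt ℝ ∞ (fun T : E (Fin d) →L[ℝ] E ι => T) J := contDiffAt_id
  exact h3.clm_comp h2

theorem contDiffAt_jac (hJ : Injective J) : ContDiffAt ℝ ∞ (jac : (E (Fin d) →L[ℝ] E ι) → ℝ) J := by
  have h0 : (ContinuousLinearMap.adjoint J ∘L J).det ≠ 0 := fun h => by
    have := jac_pos hJ
    rw [jac, h, Real.sqrt_zero] at this
    exact lt_irrefl _ this
  have h1 : ContDiff ℝ ∞ fun T : E (Fin d) →L[ℝ] E ι => (ContinuousLinearMap.adjoint T ∘L T).det :=
    (contDiff_det (d := d)).comp (contDiff_gram (d := d) (ι := ι))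
  exact h1.contDiffAt.sqrt h0

theorem jac_comp (T : E (Fin d) →L[ℝ] E (Fin d)) : jac (J ∘L T) = jac J * |T.det| := by
  rw [jac_eq_normDet, jac_eq_normDet, ContinuousLinearMap.toLinearMap_comp,
    LinearMap.normDet_comp_of_finrank_eq _ _ rfl, LinearMap.normDet_eq_abs_det]

end LA

/-! ### charts -/

/-- Maps that are compatible with the immersions are smooth in charts. -/
theorem IsChart.smooth_map {d' : ℕ} {Y : Type} [TopologicalSpace Y] {x : X → E ι}
    {e : OpenPartialHomeomorph X (E (Fin d))} (he : IsChart x e) {j : Y → X}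
    {e' : OpenPartialHomeomorph Y (E (Fin d'))} {z : E (Fin d')} (hz : z ∈ e'.target)
    (hj : ContinuousAt j (e'.symm z)) (hjz : j (e'.symm z) ∈ e.source)
    (hx : ContDiffAt ℝ ∞ (x ∘ j ∘ e'.symm) z) : ContDiffAt ℝ ∞ (e ∘ j ∘ e'.symm) z := by
  set w := e (j (e'.symm z)) with hw
  have hwt : w ∈ e.target := e.map_source hjz
  have hφ : ContDiffAt ℝ ∞ (x ∘ e.symm) w := he.sm.contDiffAt (e.open_target.mem_nhds hwt)
  set J := fderiv ℝ (x ∘ e.symm) w with hJ
  obtain ⟨u, hu⟩ := isUnit_gram (he.inj w hwt)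
  have hψ : ContDiffAt ℝ ∞ (ContinuousLinearMap.adjoint J ∘ x ∘ e.symm) w :=
    (ContinuousLinearMap.adjoint J).contDiff.contDiffAt.comp w hφ
  have hψ' : HasFDerivAt (ContinuousLinearMap.adjoint J ∘ x ∘ e.symm)
      (ContinuousLinearEquiv.ofUnit u : E (Fin d) →L[ℝ] E (Fin d)) w := by
    have h1 := (ContinuousLinearMap.adjoint J).hasFDerivAt.comp w
      (hφ.differentiableAt (by simp)).hasFDerivAt
    have h2 : (ContinuousLinearEquiv.ofUnit u : E (Fin d) →L[ℝ] E (Fin d)) =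
        ContinuousLinearMap.adjoint J ∘L J := by
      rw [← hu]; rfl
    rw [h2]; exact h1
  have hn : (∞ : WithTop ℕ∞) ≠ 0 := by simp
  have hinv := hψ.to_localInverse hψ' hn
  have hleft := (hψ.hasStrictFDerivAt' hψ' hn).eventually_left_inverse
  have hc0 : ContinuousAt (j ∘ e'.symm) z := hj.comp (e'.continuousAt_symm hz)
  have hc : ContinuousAt (e ∘ j ∘ e'.symm) z := 
    ContinuousAt.comp (f := j ∘ e'.symm) (e.continuousAt hjz) hc0
  have hs : ∀ᶠ y in 𝓝 z, j (e'.symm y) ∈ e.source := hc0.eventually (e.open_source.mem_nhds hjz)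
  have h3 : ContDiffAt ℝ ∞ (ContinuousLinearMap.adjoint J ∘ x ∘ j ∘ e'.symm) z :=
    (ContinuousLinearMap.adjoint J).contDiff.contDiffAt.comp z hx
  have h4 : (ContinuousLinearMap.adjoint J ∘ x ∘ e.symm) w =
      (ContinuousLinearMap.adjoint J ∘ x ∘ j ∘ e'.symm) z := by
    simp only [comp_apply, hw, e.left_inv hjz]
  rw [h4] at hinv
  refine (hinv.comp z h3).congr_of_eventuallyEq ?_
  filter_upwards [hs, hc.eventually hleft] with y hy hy'
  simp only [comp_apply, e.left_inv hy] at hy' ⊢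
  exact hy'.symm

theorem IsChart.restr {x : X → E ι} {e : OpenPartialHomeomorph X (E (Fin d))} (he : IsChart x e)
    {U : Set X} (hU : IsOpen U) : IsChart x (e.restrOpen U hU) := by
  exact ⟨he.sm.mono fun _ hz => hz.1, fun z hz => he.inj z hz.1⟩

/-- composition of a chart with a local diffeomorphism of the model space -/
theorem IsChart.trans {x : X → E ι} {e : OpenPartialHomeomorph X (E (Fin d))} (he : IsChart x e)
    (g : OpenPartialHomeomorph (E (Fin d)) (E (Fin d))) (hg : ContDiffOn ℝ ∞ g g.source)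
    (hg' : ContDiffOn ℝ ∞ g.symm g.target) : IsChart x (e.trans g) := by
  have hsm : ContDiffOn ℝ ∞ (x ∘ (e.trans g).symm) (e.trans g).target :=
    he.sm.comp (hg'.mono fun _ hz => hz.1) fun _ hz => hz.2
  refine ⟨hsm, fun z hz => ?_⟩
  have h1 : DifferentiableAt ℝ g.symm z :=
    (hg'.contDiffAt (g.open_target.mem_nhds hz.1)).differentiableAt (by simp)
  have h2 : DifferentiableAt ℝ g (g.symm z) :=
    (hg.contDiffAt (g.open_source.mem_nhds (g.map_target hz.1))).differentiableAt (by simp)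
  have h3 : DifferentiableAt ℝ (x ∘ e.symm) (g.symm z) :=
    (he.sm.contDiffAt (e.open_target.mem_nhds hz.2)).differentiableAt (by simp)
  have h4 : fderiv ℝ g (g.symm z) ∘L fderiv ℝ g.symm z = ContinuousLinearMap.id ℝ _ := by
    rw [← fderiv_comp z h2 h1, ← fderiv_id (x := z)]
    exact Filter.EventuallyEq.fderiv_eq (g.eventually_right_inverse hz.1)
  have h5 : Injective (fderiv ℝ g.symm z) := by
    refine Injective.of_comp (f := fderiv ℝ g (g.symm z)) ?_
    rw [← ContinuousLinearMap.coe_comp, h4]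
    exact injective_id
  have h6 : x ∘ (e.trans g).symm = (x ∘ e.symm) ∘ g.symm := rfl
  rw [h6, fderiv_comp z h3 h1, ContinuousLinearMap.coe_comp]
  exact (he.inj _ hz.2).comp h5

section Trans

variable {F : Type} [NormedAddCommGroup F] [NormedSpace ℝ F] {x : X → E ι}
  {e e' : OpenPartialHomeomorph X (E (Fin d))} {p : X}

theorem symm_eventuallyEq {Z : Type*} {f g : X → Z} (hp : p ∈ e.source) (h : f =ᶠ[𝓝 p] g) :
    f ∘ e.symm =ᶠ[𝓝 (e p)] g ∘ e.symm := by
  have h1 := e.continuousAt_symm (e.map_source hp)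
  rw [ContinuousAt, e.left_inv hp] at h1
  exact h1.eventually h

theorem chart_eventuallyEq {Z : Type*} (f : X → Z) (hp : p ∈ e.source) (hp' : p ∈ e'.source) :
    f ∘ e'.symm =ᶠ[𝓝 (e' p)] (f ∘ e.symm) ∘ (e ∘ e'.symm) := by
  refine symm_eventuallyEq (g := (f ∘ e.symm) ∘ e) hp' ?_
  filter_upwards [e.eventually_left_inverse hp] with q hq
  simp [hq]

/-- transition maps are smooth -/
theorem IsChart.trans_smooth (he : IsChart x e) (he' : IsChart x e') (hp : p ∈ e.source)
    (hp' : p ∈ e'.source) : ContDiffAt ℝ ∞ (e ∘ e'.symm) (e' p) :=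
  he.smooth_map (j := id) (e'.map_source hp') continuousAt_id (by simpa [e'.left_inv hp'] using hp)
    (he'.sm.contDiffAt (e'.open_target.mem_nhds (e'.map_source hp')))

theorem IsChart.diff_of (he' : IsChart x e') (he : IsChart x e) (hp' : p ∈ e'.source)
    (hp : p ∈ e.source) {f : X → F} (h : DifferentiableAt ℝ (f ∘ e.symm) (e p)) :
    DifferentiableAt ℝ (f ∘ e'.symm) (e' p) := by
  have h1 := (he.trans_smooth he' hp hp').differentiableAt (by simp)
  have h2 : DifferentiableAt ℝ (f ∘ e.symm) ((e ∘ e'.symm) (e' p)) := by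
    simpa [e'.left_inv hp'] using h
  exact (h2.comp _ h1).congr_of_eventuallyEq (chart_eventuallyEq f hp hp')

/-- change of chart in the derivative (no hypothesis on `f`) -/
theorem IsChart.fderiv_trans (he : IsChart x e) (he' : IsChart x e') (hp : p ∈ e.source)
    (hp' : p ∈ e'.source) (f : X → F) : fderiv ℝ (f ∘ e'.symm) (e' p) =
      fderiv ℝ (f ∘ e.symm) (e p) ∘L fderiv ℝ (e ∘ e'.symm) (e' p) := by
  by_cases h : DifferentiableAt ℝ (f ∘ e.symm) (e p)
  · have h0 : (e ∘ e'.symm) (e' p) = e p := by simp [e'.left_inv hp']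
    rw [(chart_eventuallyEq f hp hp').fderiv_eq,
      fderiv_comp _ (h0 ▸ h) ((he.trans_smooth he' hp hp').differentiableAt (by simp)), h0]
  · rw [fderiv_zero_of_not_differentiableAt h,
      fderiv_zero_of_not_differentiableAt fun h' => h (he.diff_of he' hp hp' h')]
    simp

theorem IsChart.trans_bijective (he : IsChart x e) (he' : IsChart x e') (hp : p ∈ e.source)
    (hp' : p ∈ e'.source) : Bijective (fderiv ℝ (e ∘ e'.symm) (e' p)) := by
  have h := he'.inj _ (e'.map_source hp')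
  rw [he.fderiv_trans he' hp hp' x, ContinuousLinearMap.coe_comp] at h
  exact ⟨h.of_comp, (LinearMap.injective_iff_surjective
    (f := (fderiv ℝ (e ∘ e'.symm) (e' p) : E (Fin d) →ₗ[ℝ] E (Fin d)))).1 h.of_comp⟩

theorem IsChart.adj_Lam_trans (he : IsChart x e) (he' : IsChart x e') (hp : p ∈ e.source)
    (hp' : p ∈ e'.source) : fderiv ℝ (e ∘ e'.symm) (e' p) ∘L
      ContinuousLinearMap.adjoint (Lam (fderiv ℝ (x ∘ e'.symm) (e' p))) =
      ContinuousLinearMap.adjoint (Lam (fderiv ℝ (x ∘ e.symm) (e p))) := by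
  ext1 w
  refine (adj_Lam_eq_of (he.inj _ (e.map_source hp)) fun v => ?_).symm
  obtain ⟨v', rfl⟩ := (he.trans_bijective he' hp hp').2 v
  have h := inner_sub_proj (he'.inj _ (e'.map_source hp')) v' w
  rw [he.fderiv_trans he' hp hp' x] at h ⊢
  exact h

end Trans

namespace Imm

variable {M : Imm d ι X} {F G : Type} [NormedAddCommGroup F] [NormedSpace ℝ F]
  [NormedAddCommGroup G] [NormedSpace ℝ G] {e : OpenPartialHomeomorph X (E (Fin d))} {p : X}

theorem J_inj (M : Imm d ι X) (p : X) : Injective (M.J p) :=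
  (M.isChart p).inj _ ((M.ch p).map_source (M.mem p))

/-! ### smooth functions -/

theorem Sm.chart {f : X → F} (hf : M.Sm f) (he : IsChart M.x e) :
    ContDiffOn ℝ ∞ (f ∘ e.symm) e.target := by
  intro z hz
  have h1 := (M.isChart (e.symm z)).trans_smooth he (M.mem _) (e.map_target hz)
  have h2 := (hf (e.symm z)).contDiffAt
    ((M.ch (e.symm z)).open_target.mem_nhds ((M.ch _).map_source (M.mem _)))
  have h3 := chart_eventuallyEq f (M.mem (e.symm z)) (e.map_target hz)
  have h0 : (M.ch (e.symm z) ∘ e.symm) (e (e.symm z)) = M.ch (e.symm z) (e.symm z) := by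
    simp [e.left_inv (e.map_target hz)]
  have h4 := (ContDiffAt.comp _ (h0 ▸ h2) h1).congr_of_eventuallyEq h3
  rw [e.right_inv hz] at h4
  exact h4.contDiffWithinAt

theorem sm_of_charts {f : X → F}
    (h : ∀ p, ∃ e : OpenPartialHomeomorph X (E (Fin d)), IsChart M.x e ∧ p ∈ e.source ∧
      ContDiffAt ℝ ∞ (f ∘ e.symm) (e p)) : M.Sm f := by
  intro p z hz
  obtain ⟨e, he, hp, h2⟩ := h ((M.ch p).symm z)
  have h1 := he.trans_smooth (M.isChart p) hp ((M.ch p).map_target hz)
  have h3 := chart_eventuallyEq f hp ((M.ch p).map_target hz)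
  have h0 : (e ∘ (M.ch p).symm) (M.ch p ((M.ch p).symm z)) = e ((M.ch p).symm z) := by
    simp [(M.ch p).left_inv ((M.ch p).map_target hz)]
  have h4 := (ContDiffAt.comp _ (h0 ▸ h2) h1).congr_of_eventuallyEq h3
  rw [(M.ch p).right_inv hz] at h4
  exact h4.contDiffWithinAt

theorem sm_of_local {f : X → F} (h : ∀ p, ∃ g, M.Sm g ∧ f =ᶠ[𝓝 p] g) : M.Sm f := by
  refine sm_of_charts fun p => ⟨M.ch p, M.isChart p, M.mem p, ?_⟩
  obtain ⟨g, hg, hfg⟩ := h p
  exact ((hg p).contDiffAt ((M.ch p).open_target.mem_nhds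
    ((M.ch p).map_source (M.mem p)))).congr_of_eventuallyEq (symm_eventuallyEq (M.mem p) hfg)

theorem Sm.continuous {f : X → F} (hf : M.Sm f) : Continuous f := by
  refine continuous_iff_continuousAt.2 fun p => ?_
  have h1 := ((hf p).contDiffAt ((M.ch p).open_target.mem_nhds
    ((M.ch p).map_source (M.mem p)))).continuousAt
  refine (h1.comp ((M.ch p).continuousAt (M.mem p))).congr ?_
  filter_upwards [(M.ch p).eventually_left_inverse (M.mem p)] with q hq
  simp [hq]

theorem Sm.diffAt {f : X → F} (hf : M.Sm f) (p : X) : M.DiffAt f p := by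
  exact ((hf p).contDiffAt ((M.ch p).open_target.mem_nhds
    ((M.ch p).map_source (M.mem p)))).differentiableAt (by simp)

theorem sm_x (M : Imm d ι X) : M.Sm M.x := fun p => (M.isChart p).sm

theorem continuous_x (M : Imm d ι X) : Continuous M.x := M.sm_x.continuous

theorem sm_const (c : F) : M.Sm fun _ => c := fun _ => contDiffOn_const

theorem Sm.comp {f : X → F} (hf : M.Sm f) {g : F → G} (hg : ContDiff ℝ ∞ g) :
    M.Sm fun p => g (f p) := fun p => hg.comp_contDiffOn (hf p)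

theorem Sm.comp_on {f : X → F} (hf : M.Sm f) {g : F → G} {U : Set F} (hg : ContDiffOn ℝ ∞ g U)
    (hU : ∀ p, f p ∈ U) : M.Sm fun p => g (f p) := fun p => hg.comp (hf p) fun _ _ => hU _

theorem Sm.prodMk {f : X → F} {g : X → G} (hf : M.Sm f) (hg : M.Sm g) :
    M.Sm fun p => (f p, g p) := fun p => (hf p).prodMk (hg p)

theorem Sm.add {f g : X → F} (hf : M.Sm f) (hg : M.Sm g) : M.Sm fun p => f p + g p :=
  fun p => (hf p).add (hg p)

theorem Sm.sub {f g : X → F} (hf : M.Sm f) (hg : M.Sm g) : M.Sm fun p => f p - g p :=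
  fun p => (hf p).sub (hg p)

theorem Sm.neg {f : X → F} (hf : M.Sm f) : M.Sm fun p => -f p := fun p => (hf p).neg

theorem Sm.mul {f g : X → ℝ} (hf : M.Sm f) (hg : M.Sm g) : M.Sm fun p => f p * g p :=
  fun p => (hf p).mul (hg p)

theorem Sm.smul {f : X → ℝ} {g : X → F} (hf : M.Sm f) (hg : M.Sm g) : M.Sm fun p => f p • g p :=
  fun p => (hf p).smul (hg p)

theorem Sm.pow {f : X → ℝ} (hf : M.Sm f) (n : ℕ) : M.Sm fun p => f p ^ n := fun p => (hf p).pow n

theorem Sm.inv {f : X → ℝ} (hf : M.Sm f) (h0 : ∀ p, f p ≠ 0) : M.Sm fun p => (f p)⁻¹ :=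
  fun p => (hf p).inv fun _ _ => h0 _

theorem Sm.div {f g : X → ℝ} (hf : M.Sm f) (hg : M.Sm g) (h0 : ∀ p, g p ≠ 0) :
    M.Sm fun p => f p / g p := fun p => (hf p).div (hg p) fun _ _ => h0 _

theorem Sm.sqrt {f : X → ℝ} (hf : M.Sm f) (h0 : ∀ p, f p ≠ 0) : M.Sm fun p => √(f p) :=
  fun p => (hf p).sqrt fun _ _ => h0 _

theorem Sm.log {f : X → ℝ} (hf : M.Sm f) (h0 : ∀ p, f p ≠ 0) : M.Sm fun p => Real.log (f p) :=
  fun p => (hf p).log fun _ _ => h0 _

theorem Sm.exp {f : X → ℝ} (hf : M.Sm f) : M.Sm fun p => Real.exp (f p) := fun p => (hf p).exp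

theorem sm_sum {κ : Type*} (s : Finset κ) {f : κ → X → F} (hf : ∀ k ∈ s, M.Sm (f k)) :
    M.Sm fun p => ∑ k ∈ s, f k p := fun p => ContDiffOn.sum fun k hk => hf k hk p

theorem sm_euclid {κ : Type} [Fintype κ] {f : X → E κ} : M.Sm f ↔ ∀ k, M.Sm fun p => f p k :=
  ⟨fun h k p => contDiffOn_euclidean.1 (h p) k, fun h p => contDiffOn_euclidean.2 fun k => h k p⟩

theorem sm_coord (M : Imm d ι X) (a : ι) : M.Sm fun p => M.x p a := sm_euclid.1 M.sm_x a

/-! ### the tangential derivative -/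

theorem diffAt_chart {f : X → F} (he : IsChart M.x e) (hp : p ∈ e.source) :
    M.DiffAt f p ↔ DifferentiableAt ℝ (f ∘ e.symm) (e p) := by
  exact ⟨fun h => he.diff_of (M.isChart p) hp (M.mem p) h,
    fun h => (M.isChart p).diff_of he (M.mem p) hp h⟩

/-- the tangential derivative in any chart (no hypothesis on `f`) -/
theorem td_chart (f : X → F) (he : IsChart M.x e) (hp : p ∈ e.source) : M.td f p =
    fderiv ℝ (f ∘ e.symm) (e p) ∘L
      ContinuousLinearMap.adjoint (Lam (fderiv ℝ (M.x ∘ e.symm) (e p))) := by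
  rw [td, J, he.fderiv_trans (M.isChart p) hp (M.mem p) f, ContinuousLinearMap.comp_assoc,
    he.adj_Lam_trans (M.isChart p) hp (M.mem p)]

theorem fderiv_chart (f : X → F) (he : IsChart M.x e) (hp : p ∈ e.source) :
    fderiv ℝ (f ∘ e.symm) (e p) = M.td f p ∘L fderiv ℝ (M.x ∘ e.symm) (e p) := by
  ext1 v
  rw [td_chart f he hp]
  simp only [ContinuousLinearMap.comp_apply, adj_Lam_apply (he.inj _ (e.map_source hp))]

theorem td_congr {f g : X → F} (h : f =ᶠ[𝓝 p] g) : M.td f p = M.td g p := by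
  rw [td, td, (symm_eventuallyEq (M.mem p) h).fderiv_eq]

theorem DiffAt.congr {f g : X → F} (hf : M.DiffAt f p) (h : f =ᶠ[𝓝 p] g) : M.DiffAt g p := by
  exact DifferentiableAt.congr_of_eventuallyEq hf (symm_eventuallyEq (M.mem p) h).symm

theorem DiffAt.comp {f : X → F} (hf : M.DiffAt f p) {g : F → G}
    (hg : DifferentiableAt ℝ g (f p)) : M.DiffAt (fun q => g (f q)) p := by
  have h : DifferentiableAt ℝ g ((f ∘ (M.ch p).symm) (M.ch p p)) := by
    simpa [(M.ch p).left_inv (M.mem p)] using hg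
  exact h.comp _ hf

/-- chain rule -/
theorem td_comp {f : X → F} (hf : M.DiffAt f p) {g : F → G} (hg : DifferentiableAt ℝ g (f p)) :
    M.td (fun q => g (f q)) p = fderiv ℝ g (f p) ∘L M.td f p := by
  have h0 : (f ∘ (M.ch p).symm) (M.ch p p) = f p := by simp [(M.ch p).left_inv (M.mem p)]
  have h := fderiv_comp (M.ch p p) (h0 ▸ hg) hf
  rw [h0] at h
  rw [td, td, ← ContinuousLinearMap.comp_assoc, ← h]
  rfl

theorem td_const (c : F) : M.td (fun _ => c) p = 0 := by
  have h : (fun _ : X => c) ∘ (M.ch p).symm = fun _ => c := rfl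
  rw [td, h, fderiv_fun_const]
  simp

theorem td_prodMk {f : X → F} {g : X → G} (hf : M.DiffAt f p) (hg : M.DiffAt g p) :
    M.td (fun q => (f q, g q)) p = (M.td f p).prod (M.td g p) := by
  have h := DifferentiableAt.fderiv_prodMk hf hg
  have h' : (fun q => (f q, g q)) ∘ (M.ch p).symm =
      fun z => ((f ∘ (M.ch p).symm) z, (g ∘ (M.ch p).symm) z) := rfl
  rw [td, h', h]
  rfl

theorem DiffAt.prodMk {f : X → F} {g : X → G} (hf : M.DiffAt f p) (hg : M.DiffAt g p) :
    M.DiffAt (fun q => (f q, g q)) p := by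
  exact DifferentiableAt.prodMk hf hg

theorem td_eq_zero_of_notMem {f : X → F} (hp : p ∉ tsupport f) : M.td f p = 0 := by
  rw [td_congr (notMem_tsupport_iff_eventuallyEq.1 hp)]
  exact td_const 0

theorem Sm.td {f : X → F} (hf : M.Sm f) : M.Sm (M.td f) := by
  intro p
  have ho := (M.ch p).open_target
  have h1 : ContDiffOn ℝ ∞ (fderiv ℝ (f ∘ (M.ch p).symm)) (M.ch p).target :=
    (hf p).fderiv_of_isOpen ho (by simp)
  have h2 : ContDiffOn ℝ ∞ (fderiv ℝ (M.x ∘ (M.ch p).symm)) (M.ch p).target :=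
    (M.isChart p).sm.fderiv_of_isOpen ho (by simp)
  have h3 : ContDiffOn ℝ ∞ (fun z => Lam (fderiv ℝ (M.x ∘ (M.ch p).symm) z)) (M.ch p).target :=
    fun z hz => (contDiffAt_Lam ((M.isChart p).inj z hz)).comp_contDiffWithinAt z (h2 z hz)
  refine (h1.clm_comp (contDiff_adjoint.comp_contDiffOn h3)).congr fun z hz => ?_
  have h4 := td_chart f (M.isChart p) ((M.ch p).map_target hz)
  rw [(M.ch p).right_inv hz] at h4
  exact h4

/-! ### the projection -/

theorem PL_eq (M : Imm d ι X) (p : X) (w : E ι) :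
    M.PL p w = M.J p (ContinuousLinearMap.adjoint (Lam (M.J p)) w) := rfl

theorem td_PL (f : X → F) (p : X) (w : E ι) : M.td f p (M.PL p w) = M.td f p w := by
  simp only [PL, td, ContinuousLinearMap.comp_apply]
  exact congrArg _ (adj_Lam_apply (M.J_inj p) _)

theorem PL_PL (M : Imm d ι X) (p : X) (w : E ι) : M.PL p (M.PL p w) = M.PL p w := td_PL _ p w

theorem PL_symm (M : Imm d ι X) (p : X) (w w' : E ι) : ⟪M.PL p w, w'⟫ = ⟪w, M.PL p w'⟫ := by
  have h1 := inner_sub_proj (M.J_inj p) (ContinuousLinearMap.adjoint (Lam (M.J p)) w) w'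
  have h2 := inner_sub_proj (M.J_inj p) (ContinuousLinearMap.adjoint (Lam (M.J p)) w') w
  rw [inner_sub_right, ← PL_eq, ← PL_eq] at h1 h2
  rw [real_inner_comm (M.PL p w') w, real_inner_comm (M.PL p w) (M.PL p w')] at *
  linarith

theorem norm_PL_le (M : Imm d ι X) (p : X) (w : E ι) : ‖M.PL p w‖ ≤ ‖w‖ := by
  have h1 : ‖M.PL p w‖ ^ 2 = ⟪w, M.PL p w⟫ := by
    rw [← real_inner_self_eq_norm_sq, M.PL_symm, M.PL_PL]
  have h2 := real_inner_le_norm w (M.PL p w)
  by_contra h
  push Not at h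
  nlinarith [norm_nonneg w]

theorem PL_chart (he : IsChart M.x e) (hp : p ∈ e.source) (v : E (Fin d)) :
    M.PL p (fderiv ℝ (M.x ∘ e.symm) (e p) v) = fderiv ℝ (M.x ∘ e.symm) (e p) v := by
  rw [← ContinuousLinearMap.comp_apply, PL, ← fderiv_chart M.x he hp]

theorem PL_mem_range (he : IsChart M.x e) (hp : p ∈ e.source) (w : E ι) :
    M.PL p w ∈ range (fderiv ℝ (M.x ∘ e.symm) (e p)) := by
  rw [PL, td_chart M.x he hp]
  exact ⟨_, rfl⟩

theorem sm_PL (M : Imm d ι X) : M.Sm M.PL := M.sm_x.td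

variable [DecidableEq ι]

theorem PL_ee_symm (M : Imm d ι X) (p : X) (a b : ι) : M.PL p (ee a) b = M.PL p (ee b) a := by
  have h := M.PL_symm p (ee a) (ee b)
  simpa [EuclideanSpace.inner_single_left, EuclideanSpace.inner_single_right] using h

theorem P_apply (M : Imm d ι X) (a b : ι) (p : X) : M.pre.P a b p = M.PL p (ee a) b := by
  have h := td_comp (M.sm_x.diffAt p) (g := EuclideanSpace.proj (𝕜 := ℝ) b)
    (EuclideanSpace.proj (𝕜 := ℝ) b).differentiableAt
  rw [ContinuousLinearMap.fderiv] at h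
  exact congrArg (fun T : E ι →L[ℝ] ℝ => T (ee a)) h

theorem PL_apply (M : Imm d ι X) (p : X) (w : E ι) (a : ι) :
    M.PL p w a = ∑ b, M.pre.P a b p * w b := by
  conv_lhs => rw [eq_sum_ee w, map_sum]
  simp only [map_smul, WithLp.ofLp_sum, WithLp.ofLp_smul, Finset.sum_apply, Pi.smul_apply,
    smul_eq_mul]
  refine Finset.sum_congr rfl fun b _ => ?_
  rw [P_apply, M.PL_ee_symm, mul_comm]

theorem P_symm (M : Imm d ι X) (a b : ι) : M.pre.P a b = M.pre.P b a := by
  funext p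
  rw [P_apply, P_apply, M.PL_ee_symm]

theorem tr_P (M : Imm d ι X) (p : X) : ∑ a, M.pre.P a a p = d := by
  have h1 : ∑ a, M.pre.P a a p = LinearMap.trace ℝ _ (M.PL p : E ι →ₗ[ℝ] E ι) := by
    rw [LinearMap.trace_eq_sum_inner _ (EuclideanSpace.basisFun ι ℝ)]
    refine Finset.sum_congr rfl fun a _ => ?_
    rw [P_apply]
    simp [EuclideanSpace.inner_single_left]
  have h2 : (M.PL p : E ι →ₗ[ℝ] E ι) = (M.J p : E (Fin d) →ₗ[ℝ] E ι) ∘ₗ
      (ContinuousLinearMap.adjoint (Lam (M.J p)) : E ι →L[ℝ] E (Fin d)) := rfl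
  have h3 : ((ContinuousLinearMap.adjoint (Lam (M.J p)) : E ι →L[ℝ] E (Fin d)) :
      E ι →ₗ[ℝ] E (Fin d)) ∘ₗ (M.J p : E (Fin d) →ₗ[ℝ] E ι) = LinearMap.id :=
    LinearMap.ext fun v => adj_Lam_apply (M.J_inj p) v
  rw [h1, h2, LinearMap.trace_comp_comm', h3, LinearMap.trace_id]
  simp

theorem abs_P_le (M : Imm d ι X) (a b : ι) (p : X) : |M.pre.P a b p| ≤ 1 := by
  rw [P_apply]
  have h1 := PiLp.norm_apply_le (M.PL p (ee a)) b
  have h2 := M.norm_PL_le p (ee a)
  simp only [Real.norm_eq_abs, PiLp.norm_single, norm_one] at h1 h2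
  exact h1.trans h2

theorem td_apply (f : X → ℝ) (p : X) (w : E ι) : M.td f p w = ∑ a, w a * M.pre.D a f p := by
  conv_lhs => rw [eq_sum_ee w, map_sum]
  simp only [map_smul, smul_eq_mul]
  rfl

theorem td_eq_inner (f : X → ℝ) (p : X) (w : E ι) : M.td f p w = ⟪M.grad f p, w⟫ := by
  rw [td_apply, PiLp.inner_apply]
  simp [grad]

theorem PL_grad (f : X → ℝ) (p : X) : M.PL p (M.grad f p) = M.grad f p := by
  refine ext_inner_right ℝ fun w => ?_
  rw [M.PL_symm, ← td_eq_inner, ← td_eq_inner, td_PL]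

theorem tan_D (f : X → ℝ) : M.pre.Tan fun a => M.pre.D a f := by
  intro a
  funext p
  have h := M.PL_apply p (M.grad f p) a
  rw [PL_grad] at h
  simpa [grad] using h.symm

theorem gam_apply (f g : X → ℝ) (p : X) :
    M.pre.gam f g p = ∑ a, M.pre.D a f p * M.pre.D a g p := by
  simp [Pre.gam]

theorem gam_eq_inner (f g : X → ℝ) (p : X) : M.pre.gam f g p = ⟪M.grad f p, M.grad g p⟫ := by
  rw [gam_apply, PiLp.inner_apply]
  simp [grad, mul_comm]

theorem gam_self_eq (f : X → ℝ) (p : X) : M.pre.gam f f p = ‖M.grad f p‖ ^ 2 := by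
  rw [gam_eq_inner, real_inner_self_eq_norm_sq]

theorem norm_td (f : X → ℝ) (p : X) : ‖M.td f p‖ = ‖M.grad f p‖ := by
  have h : M.td f p = innerSL ℝ (M.grad f p) := by
    ext1 w; exact td_eq_inner f p w
  rw [h, innerSL_apply_norm]

theorem gam_self_nonneg (f : X → ℝ) (p : X) : 0 ≤ M.pre.gam f f p := by
  rw [gam_self_eq]; positivity

/-! ### rules for `D` -/

theorem D_congr {f g : X → ℝ} (h : f =ᶠ[𝓝 p] g) (a : ι) : M.pre.D a f p = M.pre.D a g p :=
  congrArg (fun T : E ι →L[ℝ] ℝ => T (ee a)) (td_congr h)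

theorem D_const (c : ℝ) (a : ι) (p : X) : M.pre.D a (fun _ => c) p = 0 :=
  congrArg (fun T : E ι →L[ℝ] ℝ => T (ee a)) (td_const c)

theorem D_eq_zero_of_notMem {f : X → ℝ} (hp : p ∉ tsupport f) (a : ι) : M.pre.D a f p = 0 :=
  congrArg (fun T : E ι →L[ℝ] ℝ => T (ee a)) (td_eq_zero_of_notMem hp)

theorem D_add {f g : X → ℝ} (hf : M.DiffAt f p) (hg : M.DiffAt g p) (a : ι) :
    M.pre.D a (fun q => f q + g q) p = M.pre.D a f p + M.pre.D a g p := by
  have h : (fun q => f q + g q) ∘ (M.ch p).symm =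
      fun z => (f ∘ (M.ch p).symm) z + (g ∘ (M.ch p).symm) z := rfl
  simp only [pre, td, h, fderiv_fun_add hf hg, ContinuousLinearMap.comp_apply,
    add_apply]

theorem D_sub {f g : X → ℝ} (hf : M.DiffAt f p) (hg : M.DiffAt g p) (a : ι) :
    M.pre.D a (fun q => f q - g q) p = M.pre.D a f p - M.pre.D a g p := by
  have h : (fun q => f q - g q) ∘ (M.ch p).symm =
      fun z => (f ∘ (M.ch p).symm) z - (g ∘ (M.ch p).symm) z := rfl
  simp only [pre, td, h, fderiv_fun_sub hf hg, ContinuousLinearMap.comp_apply,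
    sub_apply]

theorem D_neg (f : X → ℝ) (a : ι) (p : X) : M.pre.D a (fun q => -f q) p = -M.pre.D a f p := by
  have h : (fun q => -f q) ∘ (M.ch p).symm = fun z => -(f ∘ (M.ch p).symm) z := rfl
  simp only [pre, td, h, fderiv_fun_neg, ContinuousLinearMap.comp_apply,
    neg_apply]

theorem D_mul {f g : X → ℝ} (hf : M.DiffAt f p) (hg : M.DiffAt g p) (a : ι) :
    M.pre.D a (fun q => f q * g q) p = f p * M.pre.D a g p + M.pre.D a f p * g p := by
  have h : (fun q => f q * g q) ∘ (M.ch p).symm =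
      fun z => (f ∘ (M.ch p).symm) z * (g ∘ (M.ch p).symm) z := rfl
  simp only [pre, td, h, fderiv_fun_mul hf hg]
  simp only [ContinuousLinearMap.comp_apply, add_apply, smul_apply, comp_apply,
    (M.ch p).left_inv (M.mem p), smul_eq_mul]
  ring

theorem D_const_mul (c : ℝ) {f : X → ℝ} (hf : M.DiffAt f p) (a : ι) :
    M.pre.D a (fun q => c * f q) p = c * M.pre.D a f p := by
  rw [D_mul ((sm_const c).diffAt p) hf, D_const]
  ring

theorem D_sum {κ : Type*} (s : Finset κ) {f : κ → X → ℝ} (hf : ∀ k ∈ s, M.DiffAt (f k) p) (a : ι) :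
    M.pre.D a (fun q => ∑ k ∈ s, f k q) p = ∑ k ∈ s, M.pre.D a (f k) p := by
  have h : (fun q => ∑ k ∈ s, f k q) ∘ (M.ch p).symm =
      fun z => ∑ k ∈ s, (f k ∘ (M.ch p).symm) z := rfl
  simp only [pre, td, h, fderiv_fun_sum hf, ContinuousLinearMap.comp_apply,
    sum_apply]

theorem D_comp {f : X → ℝ} (hf : M.DiffAt f p) {g : ℝ → ℝ} {g' : ℝ} (hg : HasDerivAt g g' (f p))
    (a : ι) : M.pre.D a (fun q => g (f q)) p = g' * M.pre.D a f p := by
  have h := td_comp hf hg.differentiableAt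
  rw [hg.hasFDerivAt.fderiv] at h
  simp only [pre, h]
  simp [mul_comm]

/-- functions of the position -/
theorem D_amb {g : E ι → ℝ} (hg : DifferentiableAt ℝ g (M.x p)) (a : ι) :
    M.pre.D a (fun q => g (M.x q)) p = fderiv ℝ g (M.x p) (M.PL p (ee a)) := by
  exact congrArg (fun T : E ι →L[ℝ] ℝ => T (ee a)) (td_comp (M.sm_x.diffAt p) hg)

theorem D_normSq (y : E ι) (a : ι) (p : X) :
    M.pre.D a (fun q => ‖M.x q - y‖ ^ 2) p = 2 * M.PL p (M.x p - y) a := by
  have h : HasFDerivAt (fun z : E ι => ‖z - y‖ ^ 2) _ (M.x p) :=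
    ((hasFDerivAt_id (𝕜 := ℝ) (M.x p)).sub_const y).norm_sq
  rw [D_amb h.differentiableAt, h.fderiv]
  simp [← M.PL_symm, EuclideanSpace.inner_single_right]

theorem Sm.D {f : X → ℝ} (hf : M.Sm f) (a : ι) : M.Sm (M.pre.D a f) := by
  exact hf.td.comp (g := fun T : E ι →L[ℝ] ℝ => T (ee a)) (contDiff_id.clm_apply contDiff_const)

theorem Sm.grad {f : X → ℝ} (hf : M.Sm f) : M.Sm (M.grad f) := sm_euclid.2 fun a => hf.D a

theorem tsupport_D_subset (f : X → ℝ) (a : ι) : tsupport (M.pre.D a f) ⊆ tsupport f := by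
  refine closure_minimal (fun p hp => ?_) (isClosed_tsupport f)
  by_contra h
  exact hp (D_eq_zero_of_notMem h a)

theorem Tst.D {f : X → ℝ} (hf : M.Tst f) (a : ι) : M.Tst (M.pre.D a f) := by
  exact ⟨hf.sm.D a, hf.cs.of_isClosed_subset (isClosed_tsupport _) (tsupport_D_subset f a)⟩

theorem vv_pos (M : Imm d ι X) (u : X → ℝ) (p : X) : 0 < M.vv u p := by
  have := gam_self_nonneg (M := M) u p
  exact inv_pos.2 (Real.sqrt_pos.2 (by linarith))

theorem vv_le_one (M : Imm d ι X) (u : X → ℝ) (p : X) : M.vv u p ≤ 1 := by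
  have := gam_self_nonneg (M := M) u p
  exact inv_le_one_of_one_le₀ (Real.one_le_sqrt.2 (by linarith))

theorem vv_sq (M : Imm d ι X) (u : X → ℝ) (p : X) :
    M.vv u p ^ 2 * (1 + M.pre.gam u u p) = 1 := by
  have := gam_self_nonneg (M := M) u p
  rw [vv, inv_pow, Real.sq_sqrt (by linarith), inv_mul_cancel₀ (by linarith)]

theorem Sm.vv {u : X → ℝ} (hu : M.Sm u) : M.Sm (M.vv u) := by
  have h1 : M.Sm fun p => 1 + M.pre.gam u u p := by
    simp only [gam_apply]
    exact (sm_const 1).add (sm_sum _ fun a _ => (hu.D a).mul (hu.D a))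
  have h2 : ∀ p, 0 < 1 + M.pre.gam u u p := fun p => by
    have := gam_self_nonneg (M := M) u p
    linarith
  exact (h1.sqrt fun p => (h2 p).ne').inv fun p => (Real.sqrt_pos.2 (h2 p)).ne'

end Imm

end Crest.Agent.N222

end
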