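import Crest.Agent.N222.F.Basic
import Crest.Agent.N222.G.Graph

/-!
# Row 222, framework: second derivatives, the algebra of smooth functions, maximum principle
(SKELETON: fill in place, statements frozen; add lemmas freely)

Every identity of `G/Basic`, `G/Graph` is transported to functions as follows:
`congrArg Subtype.val (M.isDS.foo ⟨f, hf⟩)` and `simp [M.hom.gam, …]` (see `lap_mul` below).
-/

set_option autoImplicit false
set_option linter.unusedSectionVars false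
set_option maxHeartbeats 400000
open MeasureTheory Set Filter Topology Function
open scoped ContDiff InnerProductSpace RealInnerProductSpace

noncomputable section

namespace Crest.Agent.N222.Imm

variable {d : ℕ} {ι : Type} [Fintype ι] [DecidableEq ι] {X : Type} [TopologicalSpace X]
  {M : Imm d ι X} {e : OpenPartialHomeomorph X (E (Fin d))} {p : X}

theorem two_le_inf : (2 : WithTop ℕ∞) ≤ ∞ := WithTop.coe_le_coe.2 (le_top (a := (2 : ℕ∞)))

theorem hasFDerivAt_apply_const {V W F : Type} [NormedAddCommGroup V] [NormedSpace ℝ V]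
    [NormedAddCommGroup W] [NormedSpace ℝ W] [NormedAddCommGroup F] [NormedSpace ℝ F]
    {c : V → W →L[ℝ] F} {z : V} (hc : DifferentiableAt ℝ c z) (w : W) :
    HasFDerivAt (fun y => c y w) ((fderiv ℝ c z).flip w) z := by
  simpa using hc.hasFDerivAt.clm_apply (hasFDerivAt_const w z)

/-- the second derivative at a local maximum -/
theorem fderiv_fderiv_nonpos {V : Type} [NormedAddCommGroup V] [NormedSpace ℝ V] {φ : V → ℝ}
    {z : V} (hφ : ContDiffAt ℝ 2 φ z) (h : IsLocalMax φ z) (v : V) :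
    fderiv ℝ (fderiv ℝ φ) z v v ≤ 0 := by
  have hl : ∀ t : ℝ, HasDerivAt (fun t : ℝ => z + t • v) v t := fun t => by
    simpa using ((hasDerivAt_id t).smul_const v).const_add z
  have e0 : z = z + (0 : ℝ) • v := by simp
  have hc := (hl 0).continuousAt
  have hm : IsLocalMax (φ ∘ fun t : ℝ => z + t • v) 0 := IsLocalMax.comp_continuous (e0 ▸ h) hc
  have h1 : deriv (φ ∘ fun t : ℝ => z + t • v) =ᶠ[𝓝 0] fun t => fderiv ℝ φ (z + t • v) v := by
    filter_upwards [hc.eventually (e0 ▸ hφ.eventually (by simp))] with t ht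
    exact ((ht.differentiableAt two_ne_zero).hasFDerivAt.comp_hasDerivAt t (hl t)).deriv
  have h2 := ((hasFDerivAt_apply_const ((hφ.fderiv_right (m := 1) le_rfl).differentiableAt
    one_ne_zero) v).comp_hasDerivAt_of_eq 0 (hl 0) e0).deriv
  have h3 : deriv (deriv (φ ∘ fun t : ℝ => z + t • v)) 0 = fderiv ℝ (fderiv ℝ φ) z v v :=
    h1.deriv_eq.trans h2
  by_contra! hpos
  have h4 := isLocalMin_of_deriv_deriv_pos (h3 ▸ hpos) hm.deriv_eq_zero
    (ContinuousAt.comp (e0 ▸ hφ.continuousAt) hc)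
  have h5 : (φ ∘ fun t : ℝ => z + t • v) =ᶠ[𝓝 0] fun _ => (φ ∘ fun t : ℝ => z + t • v) 0 := by
    filter_upwards [hm, h4] with t h h' using le_antisymm h h'
  rw [h5.deriv.deriv_eq] at h3
  simp [← h3] at hpos

theorem trace_sub_nonpos (A : ι → ι → ℝ) (h : ∀ ξ : ι → ℝ, ∑ a, ∑ b, A a b * (ξ a * ξ b) ≤ 0)
    (ξ : ι → ℝ) (hξ : ∑ a, ξ a * ξ a ≤ 1) : ∑ a, A a a - ∑ a, ∑ b, ξ a * ξ b * A a b ≤ 0 := by
  set Q := ∑ a, ∑ b, A a b * (ξ a * ξ b) with hQ
  have e : ∀ c, ∑ a, ∑ b, A a b * (((if a = c then 1 else 0) - ξ c * ξ a) *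
      ((if b = c then 1 else 0) - ξ c * ξ b)) = A c c - ∑ b, A c b * (ξ c * ξ b) -
        ∑ a, A a c * (ξ a * ξ c) + ξ c * ξ c * Q := fun c => by
    have e1 : ∀ a b, A a b * (((if a = c then 1 else 0) - ξ c * ξ a) *
        ((if b = c then 1 else 0) - ξ c * ξ b)) =
        (if a = c then if b = c then A a b else 0 else 0) -
          (if a = c then A a b * (ξ a * ξ b) else 0) - (if b = c then A a b * (ξ a * ξ b) else 0) +
            ξ c * ξ c * (A a b * (ξ a * ξ b)) := fun a b => by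
      split_ifs with h1 h2 h2 <;> (try subst h1) <;> (try subst h2) <;> ring
    simp only [e1, Finset.sum_add_distrib, Finset.sum_sub_distrib, ← Finset.mul_sum, ← hQ,
      Finset.sum_ite_irrel, Finset.sum_const_zero, Finset.sum_ite_eq', Finset.mem_univ, if_true]
  have h1 := Finset.sum_nonpos fun c (_ : c ∈ Finset.univ) =>
    (e c).symm.trans_le (h fun a => (if a = c then 1 else 0) - ξ c * ξ a)
  rw [Finset.sum_add_distrib, Finset.sum_sub_distrib, Finset.sum_sub_distrib, ← Finset.sum_mul,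
    Finset.sum_comm (f := fun c a => A a c * (ξ a * ξ c)), ← hQ] at h1
  simp only [mul_comm (_ * _) (A _ _), ← hQ]
  nlinarith [h ξ]

theorem hess_form (f : X → ℝ) (p : X) (u w : E ι) :
    ∑ a, ∑ b, M.pre.hess f a b p * (u a * w b) = ∑ c, M.PL p w c * M.td (M.pre.D c f) p u := by
  simp only [Pre.hess, Finset.sum_apply, Pi.mul_apply, td_apply, PL_apply, Finset.sum_mul,
    Finset.mul_sum]
  rw [Finset.sum_congr rfl fun a _ => Finset.sum_comm, Finset.sum_comm]
  refine Finset.sum_congr rfl fun c _ => Finset.sum_congr rfl fun a _ =>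
    Finset.sum_congr rfl fun b _ => ?_
  rw [M.P_symm c b]
  ring

theorem hess_form_PL (f : X → ℝ) (p : X) (u w : E ι) :
    ∑ a, ∑ b, M.pre.hess f a b p * (M.PL p u a * M.PL p w b) =
      ∑ a, ∑ b, M.pre.hess f a b p * (u a * w b) := by
  simp only [hess_form, PL_PL, td_PL]

theorem clm_PL (T : E ι →L[ℝ] ℝ) (p : X) (a : ι) :
    ∑ b, M.pre.P a b p * T (ee b) = T (M.PL p (ee a)) := by
  conv_rhs => rw [← (EuclideanSpace.basisFun ι ℝ).sum_repr (M.PL p (ee a))]
  simp [P_apply]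

theorem isLocalMax_chart {f : X → ℝ} (h : IsLocalMax f p) :
    IsLocalMax (f ∘ (M.ch p).symm) (M.ch p p) :=
  IsLocalMax.comp_continuous (by rwa [(M.ch p).left_inv (M.mem p)])
    ((M.ch p).continuousAt_symm ((M.ch p).map_source (M.mem p)))

/-- second derivative in any chart -/
theorem hess_chart {f : X → ℝ} (hf : M.Sm f) (he : IsChart M.x e) (hp : p ∈ e.source)
    (v w : E (Fin d)) : fderiv ℝ (fderiv ℝ (f ∘ e.symm)) (e p) v w =
      ∑ a, ∑ b, M.pre.hess f a b p *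
        (fderiv ℝ (M.x ∘ e.symm) (e p) v a * fderiv ℝ (M.x ∘ e.symm) (e p) w b)
      + M.td f p (fderiv ℝ (fderiv ℝ (M.x ∘ e.symm)) (e p) v w) := by
  have hz := e.open_target.mem_nhds (e.map_source hp)
  have hy : ContDiffAt ℝ ∞ (M.x ∘ e.symm) (e p) := he.sm.contDiffAt hz
  have hy' : DifferentiableAt ℝ (fderiv ℝ (M.x ∘ e.symm)) (e p) :=
    ((hy.of_le two_le_inf).fderiv_right (m := 1) le_rfl).differentiableAt one_ne_zero
  have hf' : DifferentiableAt ℝ (fderiv ℝ (f ∘ e.symm)) (e p) :=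
    ((((hf.chart he).contDiffAt hz).of_le two_le_inf).fderiv_right (m := 1)
      le_rfl).differentiableAt one_ne_zero
  have h1 : (fun z => fderiv ℝ (f ∘ e.symm) z w) =ᶠ[𝓝 (e p)] fun z =>
      ∑ b, fderiv ℝ (M.x ∘ e.symm) z w b * (M.pre.D b f ∘ e.symm) z := by
    filter_upwards [hz] with z hz
    have h := fderiv_chart f he (e.map_target hz)
    rw [e.right_inv hz] at h
    rw [h, ContinuousLinearMap.comp_apply, td_apply]
    rfl
  have h2 : ∀ b, HasFDerivAt (fun z => fderiv ℝ (M.x ∘ e.symm) z w b)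
      (EuclideanSpace.proj b ∘L (fderiv ℝ (fderiv ℝ (M.x ∘ e.symm)) (e p)).flip w) (e p) :=
    fun b => (EuclideanSpace.proj (𝕜 := ℝ) b).hasFDerivAt.comp _ (hasFDerivAt_apply_const hy' w)
  have h3 : ∀ b, HasFDerivAt (M.pre.D b f ∘ e.symm)
      (M.td (M.pre.D b f) p ∘L fderiv ℝ (M.x ∘ e.symm) (e p)) (e p) := fun b => by
    rw [← fderiv_chart _ he hp]
    exact ((((hf.D b).chart he).contDiffAt hz).differentiableAt (by simp)).hasFDerivAt
  have h4 := (hasFDerivAt_apply_const hf' w).unique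
    ((HasFDerivAt.fun_sum fun b (_ : b ∈ Finset.univ) =>
      (h2 b).fun_mul (h3 b)).congr_of_eventuallyEq h1)
  have h5 := congrArg (fun T : E (Fin d) →L[ℝ] ℝ => T v) h4
  rw [hess_form, PL_chart he hp, td_apply, ← Finset.sum_add_distrib]
  simpa [e.left_inv hp, mul_comm] using h5

theorem hess_symm {f : X → ℝ} (hf : M.Sm f) (a b : ι) : M.pre.hess f a b = M.pre.hess f b a := by
  funext p
  have he := M.isChart p
  have hp := M.mem p
  have hz := (M.ch p).open_target.mem_nhds ((M.ch p).map_source hp)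
  obtain ⟨v, hv⟩ := PL_mem_range he hp (ee a)
  obtain ⟨w, hw⟩ := PL_mem_range he hp (ee b)
  have h1 := hess_chart hf he hp v w
  have h2 := hess_chart hf he hp w v
  have s1 := ((hf p).contDiffAt hz).isSymmSndFDerivAt (by simpa using two_le_inf)
  have s2 := (he.sm.contDiffAt hz).isSymmSndFDerivAt (by simpa using two_le_inf)
  rw [hv, hw, hess_form_PL] at h1 h2
  rw [s1.eq v w, s2.eq v w, h2, add_left_inj] at h1
  simpa [Pi.single_apply] using h1.symm

/-- the delta-calculus on smooth functions -/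
def preR (M : Imm d ι X) : Pre (SmR M.ch) ι where
  x a := ⟨M.pre.x a, M.sm_coord a⟩
  D a f := ⟨M.pre.D a f.1, Sm.D f.2 a⟩

/-- the inclusion of smooth functions -/
def val (M : Imm d ι X) : SmR M.ch →+* (X → ℝ) := (SmR M.ch).val.toRingHom

@[simp] theorem val_apply (f : SmR M.ch) : M.val f = f.1 := rfl

theorem hom (M : Imm d ι X) : M.preR.Hom M.pre M.val := ⟨fun _ => rfl, fun _ _ => rfl⟩

theorem isDS (M : Imm d ι X) : M.preR.IsDS where
  add a f g := Subtype.ext (funext fun p => D_add (Sm.diffAt f.2 p) (Sm.diffAt g.2 p) a)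
  mul a f g := Subtype.ext (funext fun p => D_mul (Sm.diffAt f.2 p) (Sm.diffAt g.2 p) a)
  const a r := Subtype.ext (funext fun p => D_const r a p)
  symm a b := Subtype.ext (M.P_symm a b)
  tan f a := Subtype.ext (by
    have := tan_D (M := M) f.1 a
    rw [← val_apply, map_sum]
    simp only [map_mul, M.hom.P, M.hom.D]
    exact this)
  hess f a b := Subtype.ext (by
    rw [← val_apply, ← val_apply, M.hom.hess, M.hom.hess]; exact hess_symm f.2 a b)

theorem sm_val (f : SmR M.ch) : M.Sm (M.val f) := f.2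

/-! ### closure of `Sm` -/

variable {f g F : X → ℝ} {Y : ι → X → ℝ}

theorem sm_P (M : Imm d ι X) (a b : ι) : M.Sm (M.pre.P a b) := M.hom.P a b ▸ sm_val _
theorem sm_II (M : Imm d ι X) (a b c : ι) : M.Sm (M.pre.II a b c) := M.hom.II a b c ▸ sm_val _
theorem sm_H (M : Imm d ι X) (c : ι) : M.Sm (M.pre.H c) := M.hom.H c ▸ sm_val _
theorem sm_Rm (M : Imm d ι X) (a b c e : ι) : M.Sm (M.pre.Rm a b c e) :=
  M.hom.Rm a b c e ▸ sm_val _
theorem sm_Ric (M : Imm d ι X) (a b : ι) : M.Sm (M.pre.Ric a b) := M.hom.Ric a b ▸ sm_val _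
theorem sm_scal (M : Imm d ι X) : M.Sm M.pre.scal := M.hom.scal ▸ sm_val _
theorem sm_Pb (M : Imm d ι X) (a b : Option ι) : M.Sm (M.pre.Pb a b) := M.hom.Pb a b ▸ sm_val _

theorem Sm.gam (hf : M.Sm f) (hg : M.Sm g) : M.Sm (M.pre.gam f g) :=
  (M.hom.gam ⟨f, hf⟩ ⟨g, hg⟩ ▸ sm_val _ : M.Sm (M.pre.gam (M.val ⟨f, hf⟩) (M.val ⟨g, hg⟩)))

theorem Sm.lap (hf : M.Sm f) : M.Sm (M.pre.lap f) :=
  (M.hom.lap ⟨f, hf⟩ ▸ sm_val _ : M.Sm (M.pre.lap (M.val ⟨f, hf⟩)))

theorem Sm.hess (hf : M.Sm f) (a b : ι) : M.Sm (M.pre.hess f a b) :=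
  (M.hom.hess ⟨f, hf⟩ a b ▸ sm_val _ : M.Sm (M.pre.hess (M.val ⟨f, hf⟩) a b))

theorem Sm.lapF (hF : M.Sm F) (hf : M.Sm f) : M.Sm (M.pre.lapF F f) := hf.lap.add (hF.gam hf)

theorem Sm.EF (hF : M.Sm F) : M.Sm (M.pre.EF F) :=
  (M.hom.EF ⟨F, hF⟩ ▸ sm_val _ : M.Sm (M.pre.EF (M.val ⟨F, hF⟩)))

theorem sm_dv (hY : ∀ a, M.Sm (Y a)) : M.Sm (M.pre.dv Y) :=
  (M.hom.dv (fun a => ⟨Y a, hY a⟩) ▸ sm_val _ : M.Sm (M.pre.dv fun a => M.val ⟨Y a, hY a⟩))

theorem sm_dir (hY : ∀ a, M.Sm (Y a)) (hf : M.Sm f) : M.Sm (M.pre.dir Y f) :=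
  (M.hom.dir (fun a => ⟨Y a, hY a⟩) ⟨f, hf⟩ ▸ sm_val _ :
    M.Sm (M.pre.dir (fun a => M.val ⟨Y a, hY a⟩) (M.val ⟨f, hf⟩)))

theorem sm_dvF (hF : M.Sm F) (hY : ∀ a, M.Sm (Y a)) : M.Sm (M.pre.dvF F Y) :=
  (sm_dv hY).add (sm_dir hY hF)

theorem sm_RicF (hF : M.Sm F) (hY : ∀ a, M.Sm (Y a)) : M.Sm (M.pre.RicF F Y) :=
  (M.hom.RicF ⟨F, hF⟩ (fun a => ⟨Y a, hY a⟩) ▸ sm_val _ :
    M.Sm (M.pre.RicF (M.val ⟨F, hF⟩) fun a => M.val ⟨Y a, hY a⟩))

theorem sm_Eb (hY : ∀ a, M.Sm (Y a)) : M.Sm (M.pre.Eb Y) :=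
  (M.hom.Eb (fun a => ⟨Y a, hY a⟩) ▸ sm_val _ : M.Sm (M.pre.Eb fun a => M.val ⟨Y a, hY a⟩))

/-! ### pointwise unfolding -/

theorem dir_apply (Y : ι → X → ℝ) (f : X → ℝ) (p : X) :
    M.pre.dir Y f p = ∑ a, Y a p * M.pre.D a f p := by simp [Pre.dir]

theorem dv_apply (Y : ι → X → ℝ) (p : X) : M.pre.dv Y p = ∑ a, M.pre.D a (Y a) p := by
  simp [Pre.dv]

theorem lap_apply (f : X → ℝ) (p : X) : M.pre.lap f p = ∑ a, M.pre.D a (M.pre.D a f) p := by
  simp [Pre.lap]

theorem hess_apply (f : X → ℝ) (a b : ι) (p : X) :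
    M.pre.hess f a b p = ∑ c, M.pre.P b c p * M.pre.D a (M.pre.D c f) p := by simp [Pre.hess]

theorem lapF_apply (F f : X → ℝ) (p : X) :
    M.pre.lapF F f p = M.pre.lap f p + M.pre.gam F f p := rfl

theorem EF_apply (F : X → ℝ) (p : X) :
    M.pre.EF F p = M.pre.scal p - 2 * M.pre.lap F p - M.pre.gam F F p := rfl

/-! ### locality -/

theorem D_eventuallyEq (h : f =ᶠ[𝓝 p] g) (a : ι) : M.pre.D a f =ᶠ[𝓝 p] M.pre.D a g :=
  h.eventuallyEq_nhds.mono fun _ hq => D_congr hq a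

theorem gam_congr {f' g' : X → ℝ} (h : f =ᶠ[𝓝 p] f') (h' : g =ᶠ[𝓝 p] g') :
    M.pre.gam f g p = M.pre.gam f' g' p := by
  simp only [gam_apply, D_congr h, D_congr h']

theorem lap_congr (h : f =ᶠ[𝓝 p] g) : M.pre.lap f p = M.pre.lap g p := by
  simp only [lap_apply, D_congr (D_eventuallyEq h _)]

theorem hess_congr (h : f =ᶠ[𝓝 p] g) (a b : ι) : M.pre.hess f a b p = M.pre.hess g a b p := by
  simp only [hess_apply, D_congr (D_eventuallyEq h _)]

theorem lap_eq_zero_of_notMem (hp : p ∉ tsupport f) : M.pre.lap f p = 0 := by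
  simp only [lap_apply, D_eq_zero_of_notMem fun h => hp (tsupport_D_subset f _ h),
    Finset.sum_const_zero]

/-! ### identities for functions -/

theorem lap_mul (hf : M.Sm f) (hg : M.Sm g) (p : X) : M.pre.lap (fun q => f q * g q) p =
    f p * M.pre.lap g p + 2 * M.pre.gam f g p + M.pre.lap f p * g p := by
  have := congrArg M.val (M.isDS.lap_mul ⟨f, hf⟩ ⟨g, hg⟩)
  simp only [map_add, map_mul, M.hom.lap, M.hom.gam, map_ofNat] at this
  exact congrFun this p

theorem dv_mul (hf : M.Sm f) (hY : ∀ a, M.Sm (Y a)) (p : X) :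
    M.pre.dv (fun a q => f q * Y a q) p = f p * M.pre.dv Y p + M.pre.dir Y f p := by
  have := congrArg M.val (M.isDS.dv_mul ⟨f, hf⟩ fun a => ⟨Y a, hY a⟩)
  simp only [map_add, map_mul, M.hom.dv, M.hom.dir] at this
  exact congrFun this p

theorem tr_hess (hf : M.Sm f) (p : X) : ∑ a, M.pre.hess f a a p = M.pre.lap f p := by
  have := congrArg M.val (M.isDS.tr_hess ⟨f, hf⟩)
  simp only [map_sum, M.hom.hess, M.hom.lap] at this
  simpa using congrFun this p

theorem PP (M : Imm d ι X) (a b : ι) (p : X) :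
    ∑ c, M.pre.P a c p * M.pre.P c b p = M.pre.P a b p := by
  simpa [Pre.P] using congrFun (tan_D (M := M) (M.pre.x b) a) p

theorem DD (hf : M.Sm f) (a b : ι) (p : X) : M.pre.D a (M.pre.D b f) p =
    M.pre.hess f a b p + ∑ c, M.pre.II a c b p * M.pre.D c f p := by
  have := congrArg M.val (M.isDS.DD ⟨f, hf⟩ a b)
  simp only [map_add, map_sum, map_mul, M.hom.hess, M.hom.II, M.hom.D] at this
  simpa using congrFun this p

theorem scal_DP (M : Imm d ι X) (p : X) : 2 * M.pre.scal p =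
    2 * ∑ c, (∑ a, M.pre.D a (M.pre.P a c) p) * (∑ a, M.pre.D a (M.pre.P a c) p)
      - ∑ a, ∑ b, ∑ c, M.pre.D a (M.pre.P b c) p * M.pre.D a (M.pre.P b c) p := by
  have := congrArg M.val M.isDS.scal_DP
  simp only [map_sub, map_sum, map_mul, M.hom.scal, M.hom.P, M.hom.D, map_ofNat] at this
  simpa using congrFun this p

/-- the mean curvature vector is normal -/
theorem H_tan (hY : M.pre.Tan Y) (p : X) : ∑ c, M.pre.H c p * Y c p = 0 := by
  have h1 : ∀ b, ∑ c, M.pre.H c p * M.pre.P c b p = 0 := fun b => by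
    have := congrArg M.val (M.isDS.H_tan (Y := fun c => M.preR.P c b) fun a => M.isDS.PP a b)
    simp only [map_sum, map_mul, M.hom.H, M.hom.P, map_zero] at this
    simpa using congrFun this p
  have h2 : ∀ c, Y c p = ∑ b, M.pre.P c b p * Y b p := fun c => by
    simpa using (congrFun (hY c) p).symm
  rw [Finset.sum_congr rfl fun c _ => by rw [h2 c]]
  simp only [Finset.mul_sum, ← mul_assoc]
  rw [Finset.sum_comm]
  simp only [← Finset.sum_mul, h1, zero_mul, Finset.sum_const_zero]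

theorem lap_add (hf : M.Sm f) (hg : M.Sm g) (p : X) :
    M.pre.lap (fun q => f q + g q) p = M.pre.lap f p + M.pre.lap g p := by
  simp only [lap_apply, ← Finset.sum_add_distrib]
  refine Finset.sum_congr rfl fun a _ => ?_
  rw [← D_add ((hf.D a).diffAt p) ((hg.D a).diffAt p)]
  exact D_congr (.of_forall fun q => D_add (hf.diffAt q) (hg.diffAt q) a) a

theorem lap_const_mul (c : ℝ) (hf : M.Sm f) (p : X) :
    M.pre.lap (fun q => c * f q) p = c * M.pre.lap f p := by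
  simp only [lap_apply, Finset.mul_sum]
  refine Finset.sum_congr rfl fun a _ => ?_
  rw [← D_const_mul c ((hf.D a).diffAt p)]
  exact D_congr (.of_forall fun q => D_const_mul c (hf.diffAt q) a) a

theorem lap_const (c : ℝ) (p : X) : M.pre.lap (fun _ => c) p = 0 := by
  rw [lap_apply]
  exact Finset.sum_eq_zero fun a _ =>
    (D_congr (.of_forall fun q => D_const c a q) a).trans (D_const 0 a p)

theorem DD_comp (hf : M.Sm f) {φ : ℝ → ℝ} (hφ : ContDiffAt ℝ 2 φ (f p)) (a c : ι) :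
    M.pre.D a (M.pre.D c fun q => φ (f q)) p = deriv φ (f p) * M.pre.D a (M.pre.D c f) p +
      deriv (deriv φ) (f p) * (M.pre.D a f p * M.pre.D c f p) := by
  have h1 : (M.pre.D c fun q => φ (f q)) =ᶠ[𝓝 p] fun q => deriv φ (f q) * M.pre.D c f q := by
    filter_upwards [hf.continuous.continuousAt.eventually (hφ.eventually (by simp))] with q hq
    exact D_comp (hf.diffAt q) (hq.differentiableAt two_ne_zero).hasDerivAt c
  have h2 := (hφ.derivWithin (m := 1) le_rfl).differentiableAt one_ne_zero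
  rw [D_congr h1, D_mul ((hf.diffAt p).comp h2) ((hf.D c).diffAt p),
    D_comp (hf.diffAt p) h2.hasDerivAt, mul_assoc]

theorem DD_amb {φ : E ι → ℝ} (hφ : ContDiffAt ℝ 2 φ (M.x p)) (a c : ι) :
    M.pre.D a (M.pre.D c fun q => φ (M.x q)) p =
      fderiv ℝ (fderiv ℝ φ) (M.x p) (M.PL p (ee a)) (M.PL p (ee c)) +
        ∑ b, fderiv ℝ φ (M.x p) (ee b) * M.pre.D a (M.pre.P c b) p := by
  have h1 : (M.pre.D c fun q => φ (M.x q)) =ᶠ[𝓝 p] fun q =>
      ∑ b, M.pre.P c b q * fderiv ℝ φ (M.x q) (ee b) := by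
    filter_upwards [M.continuous_x.continuousAt.eventually (hφ.eventually (by simp))] with q hq
    rw [D_amb (hq.differentiableAt two_ne_zero), clm_PL]
  have h2 := fun b => hasFDerivAt_apply_const
    ((hφ.fderiv_right (m := 1) le_rfl).differentiableAt one_ne_zero) (ee b)
  have h3 := fun b => (M.sm_x.diffAt p).comp (h2 b).differentiableAt
  have h4 : ∀ b, M.DiffAt (fun q => M.pre.P c b q * fderiv ℝ φ (M.x q) (ee b)) p := fun b =>
    DifferentiableAt.mul ((M.sm_P c b).diffAt p) (h3 b)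
  rw [D_congr h1, D_sum _ fun b _ => h4 b, ← clm_PL, ← Finset.sum_add_distrib]
  refine Finset.sum_congr rfl fun b _ => ?_
  rw [D_mul ((M.sm_P c b).diffAt p) (h3 b), D_amb (h2 b).differentiableAt, (h2 b).fderiv,
    ContinuousLinearMap.flip_apply, mul_comm (M.pre.D _ _ _)]

/-- chain rule for the Hessian -/
theorem hess_comp (hf : M.Sm f) {φ : ℝ → ℝ} (hφ : ContDiffAt ℝ 2 φ (f p)) (a b : ι) :
    M.pre.hess (fun q => φ (f q)) a b p = deriv φ (f p) * M.pre.hess f a b p +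
      deriv (deriv φ) (f p) * (M.pre.D a f p * M.pre.D b f p) := by
  have h : ∑ c, M.pre.P b c p * M.pre.D c f p = M.pre.D b f p := by
    simpa using congrFun (tan_D (M := M) f b) p
  simp only [hess_apply, DD_comp hf hφ, ← h, Finset.mul_sum, ← Finset.sum_add_distrib]
  exact Finset.sum_congr rfl fun c _ => by ring

theorem lap_comp (hf : M.Sm f) {φ : ℝ → ℝ} (hφ : ContDiffAt ℝ 2 φ (f p)) :
    M.pre.lap (fun q => φ (f q)) p = deriv φ (f p) * M.pre.lap f p +
      deriv (deriv φ) (f p) * M.pre.gam f f p := by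
  simp only [lap_apply, gam_apply, DD_comp hf hφ, Finset.mul_sum, Finset.sum_add_distrib]

/-- Hessian of a function of the position -/
theorem hess_amb {φ : E ι → ℝ} (hφ : ContDiffAt ℝ 2 φ (M.x p)) (a b : ι) :
    M.pre.hess (fun q => φ (M.x q)) a b p =
      fderiv ℝ (fderiv ℝ φ) (M.x p) (M.PL p (ee a)) (M.PL p (ee b)) +
        ∑ c, fderiv ℝ φ (M.x p) (ee c) * M.pre.II a b c p := by
  have h := clm_PL (M := M) (fderiv ℝ (fderiv ℝ φ) (M.x p) (M.PL p (ee a)) ∘L M.PL p) p b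
  simp only [ContinuousLinearMap.comp_apply, PL_PL] at h
  simp only [Pre.II, hess_apply, DD_amb hφ, mul_add, Finset.sum_add_distrib, ← h, Finset.mul_sum]
  rw [Finset.sum_comm]
  simp only [mul_left_comm, Pre.P]

theorem lap_amb {φ : E ι → ℝ} (hφ : ContDiffAt ℝ 2 φ (M.x p)) :
    M.pre.lap (fun q => φ (M.x q)) p =
      ∑ a, fderiv ℝ (fderiv ℝ φ) (M.x p) (M.PL p (ee a)) (M.PL p (ee a)) +
        ∑ c, fderiv ℝ φ (M.x p) (ee c) * M.pre.H c p := by
  simp only [Pre.H, lap_apply, DD_amb hφ, Finset.sum_add_distrib, Finset.mul_sum]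
  rw [Finset.sum_comm]
  rfl

theorem lap_normSq (y : E ι) (p : X) : M.pre.lap (fun q => ‖M.x q - y‖ ^ 2) p =
    2 * d + 2 * ∑ c, (M.x p - y) c * M.pre.H c p := by
  have h1 : ∀ a, M.pre.D a (M.pre.D a fun q => ‖M.x q - y‖ ^ 2) p = 2 * ∑ b,
      (M.pre.P a b p * M.pre.P b a p + (M.x p - y) b * M.pre.D a (M.pre.P a b) p) := fun a => by
    have s1 : ∀ b, M.Sm fun q => M.x q b - y b := fun b => (M.sm_coord b).sub (sm_const _)
    have s2 : ∀ b, M.Sm fun q => M.pre.P a b q * (M.x q b - y b) := fun b =>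
      (M.sm_P a b).mul (s1 b)
    rw [D_congr (g := fun q => 2 * ∑ b, M.pre.P a b q * (M.x q b - y b))
      (.of_forall fun q => by simp only [D_normSq, PL_apply, PiLp.sub_apply]),
      D_const_mul _ ((sm_sum _ fun b _ => s2 b).diffAt p), D_sum _ fun b _ => (s2 b).diffAt p]
    refine congrArg _ (Finset.sum_congr rfl fun b _ => ?_)
    rw [D_mul ((M.sm_P a b).diffAt p) ((s1 b).diffAt p),
      D_sub ((M.sm_coord b).diffAt p) ((sm_const _).diffAt p), D_const, sub_zero, P_symm M b a,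
      mul_comm (M.pre.D a (M.pre.P a b) p)]
    rfl
  simp only [lap_apply, h1, Finset.sum_add_distrib, mul_add, PP, ← Finset.mul_sum, tr_P, Pre.H]
  rw [Finset.sum_comm]
  simp only [← Finset.mul_sum, Pre.P]

/-! ### maximum principle -/

theorem td_eq_zero_of_isLocalMax (h : IsLocalMax f p) : M.td f p = 0 := by
  rw [td, (isLocalMax_chart h).fderiv_eq_zero, ContinuousLinearMap.zero_comp]

theorem D_eq_zero_of_isLocalMax (h : IsLocalMax f p) (a : ι) : M.pre.D a f p = 0 :=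
  congrArg (fun T : E ι →L[ℝ] ℝ => T (ee a)) (td_eq_zero_of_isLocalMax h)

theorem hess_nonpos_of_isLocalMax (hf : M.Sm f) (h : IsLocalMax f p) (ξ : ι → ℝ) :
    ∑ a, ∑ b, M.pre.hess f a b p * (ξ a * ξ b) ≤ 0 := by
  have he := M.isChart p
  have hp := M.mem p
  have hz := (M.ch p).open_target.mem_nhds ((M.ch p).map_source hp)
  obtain ⟨v, hv⟩ := PL_mem_range he hp (WithLp.toLp 2 ξ)
  have h1 := hess_chart hf he hp v v
  have h2 := fderiv_fderiv_nonpos (((hf p).contDiffAt hz).of_le two_le_inf)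
    (isLocalMax_chart h) v
  rwa [h1, hv, hess_form_PL, td_eq_zero_of_isLocalMax h, zero_apply,
    add_zero] at h2

theorem lap_nonpos_of_isLocalMax (hf : M.Sm f) (h : IsLocalMax f p) : M.pre.lap f p ≤ 0 := by
  rw [← tr_hess hf]
  exact Finset.sum_nonpos fun a _ => by
    simpa [Pi.single_apply] using hess_nonpos_of_isLocalMax hf h (Pi.single a 1)

/-- the operator `Δ - ξ ξ Hess`, `|ξ| ≤ 1` -/
theorem lap_sub_nonpos_of_isLocalMax (hf : M.Sm f) (h : IsLocalMax f p) (ξ : ι → ℝ)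
    (hξ : ∑ a, ξ a * ξ a ≤ 1) :
    M.pre.lap f p - ∑ a, ∑ b, ξ a * ξ b * M.pre.hess f a b p ≤ 0 := by
  rw [← tr_hess hf]
  exact trace_sub_nonpos (fun a b => M.pre.hess f a b p) (hess_nonpos_of_isLocalMax hf h) ξ hξ

end Crest.Agent.N222.Imm

end
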