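import Crest.Agent.N222.F.Meas

/-!
# Row 222, framework: manifold structure, bump functions, local smoothness
(statements by helper10, proofs by helper51)
-/

set_option autoImplicit false
set_option linter.unusedSectionVars false
open MeasureTheory Set Filter Topology Function
open scoped ContDiff InnerProductSpace RealInnerProductSpace Manifold

noncomputable section

namespace Crest.Agent.N222.Imm

variable {d : ℕ} {ι : Type} [Fintype ι] {X : Type} [TopologicalSpace X] {M : Imm d ι X}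
  {F : Type} [NormedAddCommGroup F] [NormedSpace ℝ F]

/-- the charted space of an immersed manifold (use with `letI`) -/
@[reducible] def chartedSpace (M : Imm d ι X) : ChartedSpace (E (Fin d)) X where
  atlas := range M.ch
  chartAt := M.ch
  mem_chart_source := M.mem
  chart_mem_atlas p := mem_range_self p

theorem isManifold (M : Imm d ι X) : letI := M.chartedSpace; IsManifold (𝓡 d) ∞ X := by
  let := M.chartedSpace
  refine isManifold_of_contDiffOn _ _ _ ?_
  rintro _ _ ⟨p, rfl⟩ ⟨q, rfl⟩ z hz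
  have hz1 : z ∈ (M.ch p).target := hz.1.1
  have hz2 : (M.ch p).symm z ∈ (M.ch q).source := hz.1.2
  have h := (M.isChart q).trans_smooth (M.isChart p) hz2 ((M.ch p).map_target hz1)
  rw [(M.ch p).right_inv hz1] at h
  exact h.contDiffWithinAt

theorem sm_iff_contMDiff {f : X → F} :
    letI := M.chartedSpace; M.Sm f ↔ ContMDiff (𝓡 d) 𝓘(ℝ, F) ∞ f := by
  let := M.chartedSpace
  constructor
  · intro hf p
    refine contMDiffAt_iff.2 ⟨hf.continuous.continuousAt, ?_⟩
    exact ((hf p).contDiffAt ((M.ch p).open_target.mem_nhds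
      ((M.ch p).map_source (M.mem p)))).contDiffWithinAt
  · intro hf
    refine sm_of_charts fun p => ⟨M.ch p, M.isChart p, M.mem p, ?_⟩
    have h := (contMDiffAt_iff.1 (hf p)).2
    rw [ModelWithCorners.Boundaryless.range_eq_univ, contDiffWithinAt_univ] at h
    exact h

include M in
theorem locallyConnected : LocallyConnectedSpace X := by
  let := M.chartedSpace
  exact ChartedSpace.locallyConnectedSpace (E (Fin d)) X

/-- smooth on a set -/
def SmOn (M : Imm d ι X) (U : Set X) (f : X → F) : Prop :=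
  ∀ p ∈ U, ContDiffAt ℝ ∞ (f ∘ (M.ch p).symm) (M.ch p p)

theorem Sm.smOn {f : X → F} (hf : M.Sm f) (U : Set X) : M.SmOn U f := by
  exact fun p _ => (hf p).contDiffAt ((M.ch p).open_target.mem_nhds ((M.ch p).map_source (M.mem p)))

theorem SmOn.sm {f : X → F} (hf : M.SmOn univ f) : M.Sm f := by
  exact sm_of_charts fun p => ⟨M.ch p, M.isChart p, M.mem p, hf p (mem_univ p)⟩

theorem smOn_of_chart {e : OpenPartialHomeomorph X (E (Fin d))} (he : IsChart M.x e) {f : X → F}
    {U : Set X} (hU : U ⊆ e.source) (hf : ∀ p ∈ U, ContDiffAt ℝ ∞ (f ∘ e.symm) (e p)) :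
    M.SmOn U f := by
  intro p hp
  have h1 := he.trans_smooth (M.isChart p) (hU hp) (M.mem p)
  have h0 : (e ∘ (M.ch p).symm) (M.ch p p) = e p := by simp [(M.ch p).left_inv (M.mem p)]
  exact (ContDiffAt.comp _ (h0 ▸ hf p hp) h1).congr_of_eventuallyEq
    (chart_eventuallyEq f (hU hp) (M.mem p))

theorem smOn_chart {e : OpenPartialHomeomorph X (E (Fin d))} (he : IsChart M.x e) :
    M.SmOn e.source e := by
  exact fun p hp => he.trans_smooth (M.isChart p) hp (M.mem p)

theorem SmOn.comp {G : Type} [NormedAddCommGroup G] [NormedSpace ℝ G] {f : X → F} {U : Set X}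
    (hf : M.SmOn U f) {g : F → G} (hg : ∀ p ∈ U, ContDiffAt ℝ ∞ g (f p)) :
    M.SmOn U fun p => g (f p) := by
  intro p hp
  have h0 : (f ∘ (M.ch p).symm) (M.ch p p) = f p := by simp [(M.ch p).left_inv (M.mem p)]
  exact ContDiffAt.comp (g := g) (f := f ∘ (M.ch p).symm) _ (h0 ▸ hg p hp) (hf p hp)

/-- a function that is smooth on `U` and vanishes near every point outside `U` -/
theorem SmOn.sm_of_tsupport {f : X → F} {U : Set X} (hf : M.SmOn U f) (h : tsupport f ⊆ U) :
    M.Sm f := by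
  refine SmOn.sm fun p _ => ?_
  by_cases hp : p ∈ tsupport f
  · exact hf p (h hp)
  · exact (contDiffAt_const (c := (0 : F))).congr_of_eventuallyEq
      (symm_eventuallyEq (M.mem p) (notMem_tsupport_iff_eventuallyEq.1 hp))

theorem SmOn.smul_sm {f : X → F} {U : Set X} (hf : M.SmOn U f) {χ : X → ℝ} (hχ : M.Sm χ)
    (h : tsupport χ ⊆ U) : M.Sm fun p => χ p • f p := by
  have h1 : M.SmOn U fun p => χ p • f p := fun p hp => (hχ.smOn U p hp).smul (hf p hp)
  exact h1.sm_of_tsupport ((tsupport_smul_subset_left χ f).trans h)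

variable [T2Space X] [SecondCountableTopology X]

theorem exists_bump (M : Imm d ι X) {K U : Set X} (hK : IsCompact K) (hU : IsOpen U) (h : K ⊆ U) :
    ∃ χ : X → ℝ, M.Tst χ ∧ tsupport χ ⊆ U ∧ (∀ p, 0 ≤ χ p ∧ χ p ≤ 1) ∧ ∀ᶠ p in 𝓝ˢ K, χ p = 1 := by
  let := M.chartedSpace
  have := M.isManifold
  have : LocallyCompactSpace X := ChartedSpace.locallyCompactSpace (E (Fin d)) X
  obtain ⟨L, hL, hKL, hLU⟩ := exists_compact_between hK hU h
  obtain ⟨f, h1, h0, hf⟩ := exists_contMDiffMap_one_nhds_of_subset_interior (n := ⊤) (𝓡 d)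
    hK.isClosed hKL
  have hs : tsupport f ⊆ L := closure_minimal (fun p hp => by_contra fun hp' => hp (h0 p hp'))
    hL.isClosed
  exact ⟨f, ⟨sm_iff_contMDiff.2 f.contMDiff, hL.of_isClosed_subset (isClosed_tsupport _) hs⟩,
    hs.trans hLU, hf, h1⟩

/-- finite partitions of unity near a compact set -/
theorem exists_partition (M : Imm d ι X) {K : Set X} (hK : IsCompact K) {κ : Type*}
    (U : κ → Set X) (hU : ∀ k, IsOpen (U k)) (h : K ⊆ ⋃ k, U k) :
    ∃ (n : ℕ) (φ : Fin n → X → ℝ) (i : Fin n → κ), (∀ k, M.Tst (φ k) ∧ tsupport (φ k) ⊆ U (i k) ∧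
      ∀ p, 0 ≤ φ k p) ∧ (∀ p, ∑ k, φ k p ≤ 1) ∧ ∀ᶠ p in 𝓝ˢ K, ∑ k, φ k p = 1 := by
  classical
  obtain ⟨t, ht⟩ := hK.elim_finite_subcover U hU h
  obtain ⟨L, hL, hLU, hKL⟩ := hK.finite_compact_cover t U (fun k _ => hU k) ht
  set i : Fin t.card → κ := fun k => t.equivFin.symm k with hi
  choose χ hχ hχU hχ01 hχ1 using fun k : Fin t.card => M.exists_bump (hL (i k)) (hU _) (hLU _)
  have hp0 : ∀ (s : Finset (Fin t.card)) p, 0 ≤ ∏ j ∈ s, (1 - χ j p) := fun s p =>
    Finset.prod_nonneg fun j _ => sub_nonneg.2 (hχ01 j p).2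
  have hsum : ∀ p, ∑ k, χ k p * ∏ j with j < k, (1 - χ j p) = 1 - ∏ j, (1 - χ j p) := fun p => by
    rw [Finset.prod_one_sub_ordered]; ring
  refine ⟨t.card, fun k p => χ k p * ∏ j with j < k, (1 - χ j p), i, fun k => ⟨⟨?_, ?_⟩, ?_, ?_⟩,
    fun p => ?_, ?_⟩
  · exact (hχ k).sm.mul fun p => contDiffOn_prod fun j _ => contDiffOn_const.sub ((hχ j).sm p)
  · exact (hχ k).cs.mul_right
  · exact (tsupport_mul_subset_left (f := χ k)).trans (hχU k)
  · exact fun p => mul_nonneg (hχ01 k p).1 (hp0 _ p)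
  · rw [hsum]; linarith [hp0 Finset.univ p]
  · refine eventually_nhdsSet_iff_forall.2 fun p hp => ?_
    rw [hKL] at hp
    obtain ⟨k, hk, hpk⟩ := mem_iUnion₂.1 hp
    have hk' : i (t.equivFin ⟨k, hk⟩) = k := by simp [hi]
    filter_upwards [eventually_nhdsSet_iff_forall.1 (hχ1 (t.equivFin ⟨k, hk⟩)) p
      (by rw [hk']; exact hpk)] with q hq
    rw [hsum, Finset.prod_eq_zero (Finset.mem_univ _) (by rw [hq, sub_self]), sub_zero]

/-- a locally smooth function agrees near a compact set with a smooth function -/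
theorem SmOn.exists_sm {f : X → F} {U K : Set X} (hf : M.SmOn U f) (hU : IsOpen U)
    (hK : IsCompact K) (h : K ⊆ U) :
    ∃ g : X → F, M.Sm g ∧ HasCompactSupport g ∧ tsupport g ⊆ U ∧ ∀ᶠ p in 𝓝ˢ K, g p = f p := by
  obtain ⟨χ, hχ, hχU, -, h1⟩ := M.exists_bump hK hU h
  refine ⟨fun p => χ p • f p, hf.smul_sm hχ.sm hχU, hχ.cs.smul_right,
    (tsupport_smul_subset_left χ f).trans hχU, h1.mono fun p hp => by simp [hp]⟩

theorem SmOn.exists_sm_at {f : X → F} {U : Set X} (hf : M.SmOn U f) (hU : IsOpen U) {p : X}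
    (hp : p ∈ U) : ∃ g : X → F, M.Sm g ∧ g =ᶠ[𝓝 p] f := by
  obtain ⟨g, hg, -, -, h⟩ := hf.exists_sm hU isCompact_singleton (singleton_subset_iff.2 hp)
  exact ⟨g, hg, by rwa [nhdsSet_singleton] at h⟩

/-- smooth approximation -/
theorem exists_sm_approx (M : Imm d ι X) {f : X → ℝ} (hf : Continuous f) {ε : X → ℝ}
    (hε : Continuous ε) (h0 : ∀ p, 0 < ε p) : ∃ g, M.Sm g ∧ ∀ p, |g p - f p| < ε p := by
  let := M.chartedSpace
  have := M.isManifold
  have : LocallyCompactSpace X := ChartedSpace.locallyCompactSpace (E (Fin d)) X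
  obtain ⟨g, hg, -⟩ := hf.exists_contMDiff_approx (𝓡 d) ⊤ hε h0
  exact ⟨g, sm_iff_contMDiff.2 g.contMDiff, hg⟩

/-- finitely many smooth functions separate the points of a compact manifold -/
theorem exists_separating [CompactSpace X] (M : Imm d ι X) : ∃ (n : ℕ) (y : Fin n → X → ℝ),
    (∀ k, M.Sm (y k)) ∧ ∀ p q, (∀ k, y k p = y k q) → p = q := by
  classical
  choose χ hχ hχU hχ01 hχ1 using fun p : X => M.exists_bump (isCompact_singleton (x := p))
    (M.ch p).open_source (singleton_subset_iff.2 (M.mem p))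
  obtain ⟨t, -, ht⟩ := isCompact_univ.elim_nhds_subcover (fun p => {q | χ p q = 1})
    fun p _ => by have h := hχ1 p; rwa [nhdsSet_singleton] at h
  let y : t × Option (Fin d) → X → ℝ := fun k q =>
    k.2.elim (χ k.1 q) fun a => (χ k.1 q • M.ch k.1 q) a
  let σ := Fintype.equivFin (t × Option (Fin d))
  refine ⟨_, fun k => y (σ.symm k), fun k => ?_, fun p q hpq => ?_⟩
  · show M.Sm (y (σ.symm k))
    rcases σ.symm k with ⟨r, _ | a⟩
    · exact (hχ r).sm
    · exact sm_euclid.1 ((smOn_chart (M.isChart r)).smul_sm (hχ r).sm (hχU r)) a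
  · have hy : ∀ k, y k p = y k q := fun k => by simpa using hpq (σ k)
    obtain ⟨r, hr, hp⟩ := mem_iUnion₂.1 (ht (mem_univ p))
    have hp : χ r p = 1 := hp
    have hq : χ r q = 1 := (hy (⟨r, hr⟩, none)).symm.trans hp
    refine (M.ch r).injOn (hχU r (subset_tsupport _ (by simp [hp])))
      (hχU r (subset_tsupport _ (by simp [hq]))) ?_
    ext a
    simpa [y, hp, hq] using hy (⟨r, hr⟩, some a)

end Crest.Agent.N222.Imm

end
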