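import Crest.Agent.N222.B.Defs

/-!
# Row 222, framework: the kernels `Phi`, `Psi`
(SKELETON: fill in place, statements frozen; add lemmas freely)
-/

set_option autoImplicit false
open MeasureTheory Set Filter Topology Function
open scoped ContDiff

noncomputable section

namespace Crest.Agent.N222

theorem contDiff_Phi : ContDiff ℝ ∞ Phi :=
  Real.smoothTransition.contDiff.comp (contDiff_const.mul (contDiff_const.sub contDiff_id))

@[fun_prop] theorem continuous_Phi : Continuous Phi := contDiff_Phi.continuous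

theorem Phi_nonneg (s : ℝ) : 0 ≤ Phi s := Real.smoothTransition.nonneg _

theorem Phi_le_one (s : ℝ) : Phi s ≤ 1 := Real.smoothTransition.le_one _

theorem Phi_eq_one {s : ℝ} (h : s ≤ 1 / 2) : Phi s = 1 :=
  Real.smoothTransition.one_of_one_le (by linarith)

theorem Phi_eq_zero {s : ℝ} (h : 1 ≤ s) : Phi s = 0 :=
  Real.smoothTransition.zero_of_nonpos (by linarith)

theorem Phi_pos {s : ℝ} (h : s < 1) : 0 < Phi s :=
  Real.smoothTransition.pos_of_pos (by linarith)

theorem antitone_Phi : Antitone Phi := fun _ _ h =>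
  Real.smoothTransition.monotone (by linarith)

theorem hasDerivAt_Phi (s : ℝ) : HasDerivAt Phi (deriv Phi s) s :=
  (contDiff_Phi.differentiable (by simp) s).hasDerivAt

theorem contDiff_deriv_Phi : ContDiff ℝ ∞ (deriv Phi) :=
  (contDiff_infty_iff_deriv.1 contDiff_Phi).2

@[fun_prop] theorem continuous_deriv_Phi : Continuous (deriv Phi) := contDiff_deriv_Phi.continuous

theorem deriv_Phi_nonpos (s : ℝ) : deriv Phi s ≤ 0 := antitone_Phi.deriv_nonpos

theorem deriv_Phi_eq_zero {s : ℝ} (h : s ≤ 1 / 2 ∨ 1 ≤ s) : deriv Phi s = 0 := by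
  rcases h with h | h
  · exact IsLocalMax.deriv_eq_zero (.of_forall fun t => (Phi_le_one t).trans (Phi_eq_one h).ge)
  · exact IsLocalMin.deriv_eq_zero (.of_forall fun t => (Phi_eq_zero h).le.trans (Phi_nonneg t))

/-- strictly negative in between -/
theorem deriv_Phi_neg {s : ℝ} (h1 : 1 / 2 < s) (h2 : s < 1) : deriv Phi s < 0 := by
  have ha : 0 < 2 * (1 - s) := by linarith
  have hb : 0 < 1 - 2 * (1 - s) := by linarith
  have d0 : HasDerivAt (fun t : ℝ => 2 * (1 - t)) (2 * -1) s :=
    ((hasDerivAt_id s).const_sub 1).const_mul 2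
  have d1 := (d0.fun_inv ha.ne').fun_neg.exp
  have d2 := ((d0.const_sub 1).fun_inv hb.ne').fun_neg.exp
  have d3 := d1.fun_div (d1.fun_add d2) (by positivity)
  have e : Phi =ᶠ[𝓝 s] fun t => Real.exp (-(2 * (1 - t))⁻¹) /
      (Real.exp (-(2 * (1 - t))⁻¹) + Real.exp (-(1 - 2 * (1 - t))⁻¹)) := by
    filter_upwards [Ioo_mem_nhds h1 h2] with t ht
    rw [Phi, Real.smoothTransition, expNegInvGlue, expNegInvGlue,
      if_neg (by linarith [ht.2]), if_neg (by linarith [ht.1])]
  rw [(d3.congr_of_eventuallyEq e).deriv]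
  refine div_neg_of_neg_of_pos ?_ (by positivity)
  have hA := Real.exp_pos (-(2 * (1 - s))⁻¹)
  have hB := Real.exp_pos (-(1 - 2 * (1 - s))⁻¹)
  have hu : 0 < 2 / (2 * (1 - s)) ^ 2 := by positivity
  have hv : 0 < 2 / (1 - 2 * (1 - s)) ^ 2 := by positivity
  have := mul_pos (mul_pos hA hB) (add_pos hu hv)
  simp only [mul_neg, mul_one, neg_neg, neg_div]
  linarith

theorem exists_deriv_Phi_le : ∃ C : ℝ, 0 < C ∧ ∀ s, |deriv Phi s| ≤ C := by
  obtain ⟨C, hC⟩ := continuous_deriv_Phi.bounded_above_of_compact_support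
    (HasCompactSupport.intro (isCompact_Icc (a := 1 / 2) (b := 1)) fun s hs =>
      deriv_Phi_eq_zero (by
        rw [mem_Icc, not_and_or, not_le, not_le] at hs
        exact hs.imp le_of_lt le_of_lt))
  exact ⟨max C 1, by positivity, fun s => (hC s).trans (le_max_left _ _)⟩

theorem hasDerivAt_Psi (s : ℝ) : HasDerivAt Psi (-Phi s) s :=
  intervalIntegral.integral_hasDerivAt_left (continuous_Phi.intervalIntegrable _ _)
    (continuous_Phi.stronglyMeasurableAtFilter _ _) continuous_Phi.continuousAt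

theorem contDiff_Psi : ContDiff ℝ ∞ Psi := by
  refine contDiff_infty_iff_deriv.2 ⟨fun s => (hasDerivAt_Psi s).differentiableAt, ?_⟩
  rw [funext fun s => (hasDerivAt_Psi s).deriv]
  exact contDiff_Phi.neg

theorem Psi_eq_zero {s : ℝ} (h : 1 ≤ s) : Psi s = 0 := by
  rw [Psi, intervalIntegral.integral_congr (g := fun _ => 0) fun t ht => Phi_eq_zero (by
    rw [uIcc_of_ge h] at ht; exact ht.1), intervalIntegral.integral_zero]

theorem Psi_nonneg (s : ℝ) : 0 ≤ Psi s := by
  rcases le_total s 1 with h | h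
  · exact intervalIntegral.integral_nonneg h fun t _ => Phi_nonneg t
  · exact (Psi_eq_zero h).ge

theorem Psi_le_Phi {s : ℝ} (h : 0 ≤ s) : Psi s ≤ Phi s := by
  rcases le_total s 1 with h1 | h1
  · refine (intervalIntegral.integral_mono_on h1 (continuous_Phi.intervalIntegrable _ _)
      (intervalIntegrable_const (c := Phi s)) fun t ht => antitone_Phi ht.1).trans ?_
    rw [intervalIntegral.integral_const, smul_eq_mul]
    exact mul_le_of_le_one_left (Phi_nonneg s) (by linarith)
  · exact (Psi_eq_zero h1).le.trans (Phi_nonneg s)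

theorem hasCompactSupport_Phi {V : Type} [NormedAddCommGroup V] [ProperSpace V] (y : V) {r : ℝ}
    (hr : 0 < r) : HasCompactSupport fun z => Phi (‖z - y‖ ^ 2 / r ^ 2) :=
  HasCompactSupport.intro (isCompact_closedBall y r) fun z hz => Phi_eq_zero
    ((one_le_div (by positivity)).2 (pow_le_pow_left₀ hr.le
      (by rw [Metric.mem_closedBall, dist_eq_norm, not_le] at hz; exact hz.le) 2))

theorem Phi_eq_zero_of_le {a r : ℝ} (hr : 0 < r) (h : r ≤ a) : Phi (a ^ 2 / r ^ 2) = 0 :=
  Phi_eq_zero ((one_le_div (by positivity)).2 (by gcongr))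

theorem Phi_eq_one_of_le {a r : ℝ} (hr : 0 < r) (h0 : 0 ≤ a) (h : a ≤ r / 2) :
    Phi (a ^ 2 / r ^ 2) = 1 :=
  Phi_eq_one ((div_le_iff₀ (by positivity)).2 (by nlinarith))

theorem cPhi_pos (d : ℕ) : 0 < cPhi d := by
  have h : HasCompactSupport fun z : E (Fin d) => Phi (‖z‖ ^ 2) := by
    simpa using hasCompactSupport_Phi (0 : E (Fin d)) one_pos
  refine Continuous.integral_pos_of_hasCompactSupport_nonneg_nonzero (x := 0) (by fun_prop) h
    (fun _ => Phi_nonneg _) ?_
  rw [Phi_eq_one (by simp)]; exact one_ne_zero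

theorem integral_Phi (d : ℕ) (y : E (Fin d)) {r : ℝ} (hr : 0 < r) :
    ∫ z, Phi (‖z - y‖ ^ 2 / r ^ 2) = cPhi d * r ^ d := by
  have h := Measure.integral_comp_inv_smul_of_nonneg volume
    (fun z : E (Fin d) => Phi (‖z‖ ^ 2)) hr.le
  rw [finrank_euclideanSpace_fin, smul_eq_mul, mul_comm] at h
  rw [integral_sub_right_eq_self (fun z : E (Fin d) => Phi (‖z‖ ^ 2 / r ^ 2)) y, cPhi, ← h]
  simp only [norm_smul, norm_inv, Real.norm_of_nonneg hr.le, mul_pow, inv_pow, div_eq_inv_mul]

end Crest.Agent.N222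

end
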