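import Crest.Agent.N222.F.Meas0

/-!
# Row 222, framework: Jacobi formula and the first variation formula in one chart (helper98)
-/

set_option autoImplicit false
set_option linter.unusedSectionVars false
open MeasureTheory Set Filter Topology Function
open scoped ContDiff InnerProductSpace RealInnerProductSpace

noncomputable section

namespace Crest.Agent.N222.Ib

open ContinuousLinearMap (adjoint)

variable {d : ℕ} {ι : Type} [Fintype ι] [DecidableEq ι]

theorem tr_eq (T : E ι →L[ℝ] E ι) :
    LinearMap.trace ℝ _ (T : E ι →ₗ[ℝ] E ι) = ∑ b, T (ee b) b := by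
  rw [LinearMap.trace_eq_matrix_trace ℝ (EuclideanSpace.basisFun ι ℝ).toBasis]
  simp [Matrix.trace, LinearMap.toMatrix_apply]

theorem tr_comm {κ : Type} [Fintype κ] [DecidableEq κ] (A : E κ →L[ℝ] E ι) (B : E ι →L[ℝ] E κ) :
    ∑ b, A (B (ee b)) b = ∑ i, B (A (ee i)) i := by
  have h := LinearMap.trace_comp_comm' (B : E ι →ₗ[ℝ] E κ) (A : E κ →ₗ[ℝ] E ι)
  rw [← ContinuousLinearMap.toLinearMap_comp, ← ContinuousLinearMap.toLinearMap_comp, tr_eq,
    tr_eq] at h
  exact h

theorem hasDerivAt_det (T : E ι →L[ℝ] E ι) :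
    HasDerivAt (fun s : ℝ => (1 + s • T).det) (∑ i, T (ee i) i) 0 := by
  let b := (EuclideanSpace.basisFun ι ℝ).toBasis
  set A := LinearMap.toMatrix b b (T : E ι →ₗ[ℝ] E ι) with hA
  set q : Polynomial ℝ :=
    (Matrix.det (1 + (Polynomial.X : Polynomial ℝ) • A.map Polynomial.C)).divX.divX with hq
  have h1 : ∀ s : ℝ, (1 + s • T).det = 1 + A.trace * s + q.eval s * s ^ 2 := by
    intro s
    rw [← Matrix.det_one_add_smul, ContinuousLinearMap.det, ← LinearMap.det_toMatrix b]
    congr 1
    have : ((1 + s • T : E ι →L[ℝ] E ι) : E ι →ₗ[ℝ] E ι) = 1 + s • (T : E ι →ₗ[ℝ] E ι) := by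
      ext u; simp
    rw [this, map_add, map_smul, LinearMap.toMatrix_one]
  rw [← tr_eq, LinearMap.trace_eq_matrix_trace ℝ b, funext h1]
  have h3 : HasDerivAt (fun s : ℝ => 1 + A.trace * s + q.eval s * s ^ 2)
      (0 + A.trace * 1 + (q.derivative.eval 0 * 0 ^ 2 + q.eval 0 * (2 * 0 ^ 1 * 1))) 0 := by
    refine ((hasDerivAt_const _ _).add ((hasDerivAt_id' (0 : ℝ)).const_mul _)).add ?_
    refine (q.hasDerivAt 0).mul ?_
    simpa using hasDerivAt_pow 2 (0 : ℝ)
  simpa using h3

/-- **Jacobi formula** -/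
theorem fderiv_jac {J : E (Fin d) →L[ℝ] E ι} (hJ : Injective J) (B : E (Fin d) →L[ℝ] E ι) :
    fderiv ℝ jac J B = jac J * ∑ i, adjoint (Lam J) (B (ee i)) i := by
  have hd : ∀ B, HasDerivAt (fun s : ℝ => jac (J + s • B)) (fderiv ℝ jac J B) 0 := fun B =>
    ((contDiffAt_jac hJ).differentiableAt (by simp)).hasFDerivAt.hasLineDerivAt B
  set A := adjoint (Lam J) ∘L B with hA
  have h1 : fderiv ℝ jac J (J ∘L A) = jac J * ∑ i, A (ee i) i := by
    have e : ∀ s : ℝ, jac (J + s • J ∘L A) = jac J * |(1 + s • A).det| := fun s => by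
      rw [← jac_comp]; congr 1; ext v; simp
    have h2 := hasDerivAt_det A
    have h3 : ∀ᶠ s : ℝ in 𝓝 0, 0 < (1 + s • A).det :=
      h2.continuousAt.eventually (lt_mem_nhds (by simp [ContinuousLinearMap.det]))
    refine (hd _).unique ((h2.const_mul (jac J)).congr_of_eventuallyEq (h3.mono fun s hs => ?_))
    simp only [e, abs_of_pos hs]
  have h2 : fderiv ℝ jac J (B - J ∘L A) = 0 := by
    set N := B - J ∘L A with hN
    have n0 : ∀ v w, ⟪J v, N w⟫ = 0 := fun v w => inner_sub_proj hJ v (B w)
    have n1 : ∀ v w, ⟪N w, J v⟫ = 0 := fun v w => by rw [real_inner_comm, n0]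
    have e : ∀ s : ℝ, jac (J + s • (-N)) = jac (J + s • N) := fun s => by
      unfold jac
      congr 2
      refine ContinuousLinearMap.ext fun v => ext_inner_left ℝ fun w => ?_
      simp only [ContinuousLinearMap.comp_apply, ContinuousLinearMap.adjoint_inner_right,
        add_apply, smul_apply,
        neg_apply, inner_add_left, inner_add_right, inner_smul_left,
        inner_smul_right, inner_neg_left, inner_neg_right, n0, n1]
      simp
    have := (hd (-N)).unique (by simpa only [e] using hd N)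
    rw [map_neg] at this
    linarith
  rw [map_sub, h1, sub_eq_zero] at h2
  exact h2

/-- the divergence theorem in the model space -/
theorem int_div {U K : Set (E (Fin d))} (hU : IsOpen U) (hK : IsCompact K) (hKU : K ⊆ U)
    {u : E (Fin d) → E (Fin d)} (hu : ContDiffOn ℝ 1 u U) (h0 : ∀ z ∈ U, z ∉ K → u z = 0) :
    ∫ z in U, ∑ i, fderiv ℝ u z (ee i) i = 0 := by
  set g := U.indicator u with hg
  have hs : tsupport g ⊆ K := closure_minimal (fun z hz => by
    by_contra h
    by_cases hz' : z ∈ U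
    · exact hz (by rw [hg, indicator_of_mem hz', h0 z hz' h])
    · exact hz (indicator_of_notMem hz' _)) hK.isClosed
  have he : ∀ z ∈ U, g =ᶠ[𝓝 z] u := fun z hz =>
    (hU.eventually_mem hz).mono fun y hy => indicator_of_mem hy _
  have hc : HasCompactSupport g := hK.of_isClosed_subset (isClosed_tsupport _) hs
  have hd : ContDiff ℝ 1 g := contDiff_iff_contDiffAt.2 fun z => by
    by_cases hz : z ∈ U
    · exact (hu.contDiffAt (hU.mem_nhds hz)).congr_of_eventuallyEq (he z hz)
    · exact contDiffAt_const.congr_of_eventuallyEq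
        (notMem_tsupport_iff_eventuallyEq.1 fun h => hz (hKU (hs h)))
  have hi : ∀ v, Integrable fun z => fderiv ℝ g z v := fun v =>
    ((hd.continuous_fderiv one_ne_zero).clm_apply continuous_const).integrable_of_hasCompactSupport
      (hc.fderiv_apply ℝ v)
  have h1 : ∀ v, ∫ z, fderiv ℝ g z v = 0 := fun v => by
    simpa using integral_smul_fderiv_eq_neg_fderiv_smul_of_integrable (μ := volume)
      (f := fun _ => (1 : ℝ)) (g := g) (v := v) (by simp) (by simpa using hi v)
      (by simpa using hd.continuous.integrable_of_hasCompactSupport hc) (by simp)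
      fun x _ => hd.differentiable one_ne_zero x
  have h2 : ∀ i, Integrable fun z => fderiv ℝ g z (ee i) i := fun i =>
    (EuclideanSpace.proj (𝕜 := ℝ) i).integrable_comp (hi _)
  have h3 : ∀ i, ∫ z, fderiv ℝ g z (ee i) i = 0 := fun i => by
    have := (EuclideanSpace.proj (𝕜 := ℝ) i).integral_comp_comm (hi (ee i))
    rw [h1, map_zero] at this
    exact this
  rw [setIntegral_congr_fun (g := fun z => ∑ i, fderiv ℝ g z (ee i) i) hU.measurableSet
    (fun z hz => by simp only [(he z hz).fderiv_eq]),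
    setIntegral_eq_integral_of_forall_compl_eq_zero, integral_finsetSum _ fun i _ => h2 i]
  · simp only [h3, Finset.sum_const_zero]
  · intro z hz
    simp [fderiv_of_notMem_tsupport ℝ fun h => hz (hKU (hs h))]

variable {X : Type} [TopologicalSpace X] {M : Imm d ι X}
  {e : OpenPartialHomeomorph X (E (Fin d))}

/-- the coordinate expression of the gradient of `x_a` -/
def Vf (x : X → E ι) (e : OpenPartialHomeomorph X (E (Fin d))) (a : ι) (z : E (Fin d)) :
    E (Fin d) := adjoint (Lam (fderiv ℝ (x ∘ e.symm) z)) (ee a)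

theorem sm_J (he : IsChart M.x e) : ContDiffOn ℝ ∞ (fderiv ℝ (M.x ∘ e.symm)) e.target :=
  he.sm.fderiv_of_isOpen e.open_target (by simp)

theorem sm_Vf (he : IsChart M.x e) (a : ι) : ContDiffOn ℝ ∞ (Vf M.x e a) e.target := by
  have h3 : ContDiffOn ℝ ∞ (fun z => Lam (fderiv ℝ (M.x ∘ e.symm) z)) e.target :=
    fun z hz => (contDiffAt_Lam (he.inj z hz)).comp_contDiffWithinAt z (sm_J he z hz)
  exact (contDiff_adjoint.comp_contDiffOn h3).clm_apply contDiffOn_const

theorem sm_rho (he : IsChart M.x e) :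
    ContDiffOn ℝ ∞ (fun z => jac (fderiv ℝ (M.x ∘ e.symm) z)) e.target :=
  fun z hz => (contDiffAt_jac (he.inj z hz)).comp_contDiffWithinAt z (sm_J he z hz)

theorem D_chart (he : IsChart M.x e) {z : E (Fin d)} (hz : z ∈ e.target) (f : X → ℝ) (a : ι) :
    M.pre.D a f (e.symm z) = fderiv ℝ (f ∘ e.symm) z (Vf M.x e a z) := by
  have h := Imm.td_chart f he (e.map_target hz)
  rw [e.right_inv hz] at h
  exact congrArg (fun T : E ι →L[ℝ] ℝ => T (ee a)) h

theorem P_chart (he : IsChart M.x e) {z : E (Fin d)} (hz : z ∈ e.target) (a b : ι) :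
    M.pre.P a b (e.symm z) = fderiv ℝ (M.x ∘ e.symm) z (Vf M.x e a z) b := by
  have h := Imm.td_chart M.x he (e.map_target hz)
  rw [e.right_inv hz] at h
  rw [Imm.P_apply, Imm.PL, h]
  rfl

/-- the mean curvature in a chart -/
theorem H_chart (he : IsChart M.x e) {z : E (Fin d)} (hz : z ∈ e.target) (a : ι) :
    M.pre.H a (e.symm z) = ∑ i, adjoint (Lam (fderiv ℝ (M.x ∘ e.symm) z))
      (fderiv ℝ (fderiv ℝ (M.x ∘ e.symm)) z (Vf M.x e a z) (ee i)) i
        + ∑ i, fderiv ℝ (Vf M.x e a) z (ee i) i := by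
  have hn := e.open_target.mem_nhds hz
  have hJ := (((sm_J he).contDiffAt hn).differentiableAt (by simp)).hasFDerivAt
  have hV := (((sm_Vf he a).contDiffAt hn).differentiableAt (by simp)).hasFDerivAt
  have hs := (he.sm.contDiffAt hn).isSymmSndFDerivAt
    (by rw [minSmoothness_of_isRCLikeNormedField]; exact WithTop.coe_le_coe.2 le_top)
  have h1 : ∀ b, M.pre.D b (M.pre.P b a) (e.symm z)
      = fderiv ℝ (fderiv ℝ (M.x ∘ e.symm)) z (Vf M.x e a z) (Vf M.x e b z) b
        + fderiv ℝ (M.x ∘ e.symm) z (fderiv ℝ (Vf M.x e a) z (Vf M.x e b z)) b := fun b => by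
    have h2 : M.pre.P a b ∘ e.symm =ᶠ[𝓝 z]
        fun y => EuclideanSpace.proj (𝕜 := ℝ) b (fderiv ℝ (M.x ∘ e.symm) y (Vf M.x e a y)) :=
      (e.open_target.eventually_mem hz).mono fun y hy => P_chart he hy a b
    have h3 := (EuclideanSpace.proj (𝕜 := ℝ) b).hasFDerivAt.comp z (hJ.clm_apply hV)
    rw [D_chart he hz, Imm.P_symm, h2.fderiv_eq, hs.eq (Vf M.x e a z), add_comm]
    exact congrArg (fun T : E (Fin d) →L[ℝ] ℝ => T (Vf M.x e b z)) h3.fderiv
  have h4 := tr_comm (fderiv ℝ (fderiv ℝ (M.x ∘ e.symm)) z (Vf M.x e a z))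
    (adjoint (Lam (fderiv ℝ (M.x ∘ e.symm) z)))
  have h5 := tr_comm (fderiv ℝ (M.x ∘ e.symm) z)
    (fderiv ℝ (Vf M.x e a) z ∘L adjoint (Lam (fderiv ℝ (M.x ∘ e.symm) z)))
  simp only [ContinuousLinearMap.comp_apply, adj_Lam_apply (he.inj z hz)] at h5
  rw [← h4, ← h5, ← Finset.sum_add_distrib, Pre.H, Pre.lap, Finset.sum_apply]
  exact Finset.sum_congr rfl fun b _ => h1 b

theorem c1_chart (he : IsChart M.x e) {f : X → ℝ} (h1 : ∀ p, M.DiffAt f p)
    (h2 : ∀ a, Continuous (M.pre.D a f)) : ContDiffOn ℝ 1 (f ∘ e.symm) e.target := by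
  refine (contDiffOn_succ_iff_fderiv_of_isOpen (n := 0) e.open_target).2
    ⟨fun z hz => ?_, by simp, contDiffOn_zero.2 (continuousOn_clm_apply.2 fun v => ?_)⟩
  · have := (Imm.diffAt_chart he (e.map_target hz)).1 (h1 _)
    rw [e.right_inv hz] at this
    exact this.differentiableWithinAt
  · have h3 : ContinuousOn (fun z => ∑ a, fderiv ℝ (M.x ∘ e.symm) z v a * M.pre.D a f (e.symm z))
        e.target := continuousOn_finsetSum _ fun a _ =>
      ((EuclideanSpace.proj (𝕜 := ℝ) a).continuous.comp_continuousOn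
        ((sm_J he).continuousOn.clm_apply continuousOn_const)).mul
        ((h2 a).comp_continuousOn e.continuousOn_symm)
    refine h3.congr fun z hz => ?_
    have := Imm.fderiv_chart f he (e.map_target hz)
    rw [e.right_inv hz] at this
    simp only [this, ContinuousLinearMap.comp_apply, Imm.td_apply]

/-- first variation for functions supported in a chart -/
theorem local_ibp [MeasurableSpace X] [BorelSpace X] [SecondCountableTopology X]
    (he : IsChart M.x e) {f : X → ℝ} (h1 : ∀ p, M.DiffAt f p)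
    (h2 : ∀ a, Continuous (M.pre.D a f)) (hc : HasCompactSupport f) (hs : tsupport f ⊆ e.source)
    (a : ι) : ∫ p, (M.pre.D a f p + M.pre.H a p * f p) ∂M.mu = 0 := by
  have hf := c1_chart he h1 h2
  have hr := (sm_rho he).of_le (show (1 : WithTop ℕ∞) ≤ ∞ by simp)
  have hV := (sm_Vf he a).of_le (show (1 : WithTop ℕ∞) ≤ ∞ by simp)
  have key := int_div e.open_target (hc.isCompact.image_of_continuousOn (e.continuousOn.mono hs))
    (image_subset_iff.2 fun p hp => e.map_source (hs hp)) ((hf.mul hr).smul hV) fun z hz h => by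
      have : f (e.symm z) = 0 :=
        image_eq_zero_of_notMem_tsupport fun h' => h ⟨_, h', e.right_inv hz⟩
      simp [this]
  rw [← setIntegral_eq_integral_of_forall_compl_eq_zero (s := e.source), Ms0.mu_restrict he,
    Ms0.int he, ← key]
  · refine setIntegral_congr_fun e.open_target.measurableSet fun z hz => ?_
    have hn := e.open_target.mem_nhds hz
    have df := ((hf.contDiffAt hn).differentiableAt one_ne_zero).hasFDerivAt
    have dV := ((hV.contDiffAt hn).differentiableAt one_ne_zero).hasFDerivAt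
    have dJ := (((sm_J he).contDiffAt hn).differentiableAt (by simp)).hasFDerivAt
    have dr := ((contDiffAt_jac (he.inj z hz)).differentiableAt (by simp)).hasFDerivAt.comp z dJ
    have d1 := ((df.mul dr).smul dV).fderiv
    have e1 : ∀ L : E (Fin d) →L[ℝ] ℝ, ∑ i, L (ee i) * Vf M.x e a z i = L (Vf M.x e a z) :=
      fun L => by
        conv_rhs => rw [eq_sum_ee (Vf M.x e a z)]
        simp only [map_sum, map_smul, smul_eq_mul, mul_comm]
    beta_reduce
    erw [d1]
    simp only [add_apply, smul_apply,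
      ContinuousLinearMap.smulRight_apply, PiLp.add_apply, PiLp.smul_apply, smul_eq_mul,
      Finset.sum_add_distrib, ← Finset.mul_sum, add_mul, mul_assoc, e1]
    rw [D_chart he hz, H_chart he hz, ContinuousLinearMap.comp_apply, fderiv_jac (he.inj z hz)]
    simp only [Pi.mul_apply, comp_apply]
    ring
  · intro p hp
    have h : p ∉ tsupport f := fun h => hp (hs h)
    rw [Imm.D_eq_zero_of_notMem h, image_eq_zero_of_notMem_tsupport h, mul_zero, add_zero]

/-- bump functions in a chart -/
theorem exists_chi [T2Space X] (M : Imm d ι X) (p : X) : ∃ χ : X → ℝ, M.Sm χ ∧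
    tsupport χ ⊆ (M.ch p).source ∧ ∀ᶠ q in 𝓝 p, χ q = 1 := by
  set e := M.ch p with he
  have hp : p ∈ e.source := M.mem p
  obtain ⟨r, hr, hb⟩ := Metric.nhds_basis_closedBall.mem_iff.1
    (e.open_target.mem_nhds (e.map_source hp))
  let b : ContDiffBump (e p) := ⟨r / 2, r, by positivity, by linarith⟩
  have hK : IsCompact (e.symm '' Metric.closedBall (e p) r) :=
    (isCompact_closedBall _ _).image_of_continuousOn (e.continuousOn_symm.mono hb)
  have hKs : e.symm '' Metric.closedBall (e p) r ⊆ e.source :=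
    image_subset_iff.2 fun z hz => e.map_target (hb hz)
  have hs : tsupport (e.source.indicator fun q => b (e q)) ⊆ e.symm '' Metric.closedBall (e p) r :=
    closure_minimal (fun q hq => by
      have h1 : q ∈ e.source := by
        by_contra h; exact hq (indicator_of_notMem h _)
      refine ⟨e q, ?_, e.left_inv h1⟩
      rw [mem_support, indicator_of_mem h1] at hq
      have : e q ∈ support b := hq
      rw [b.support_eq] at this
      exact Metric.ball_subset_closedBall this) hK.isClosed
  refine ⟨e.source.indicator fun q => b (e q), Imm.sm_of_charts fun q => ?_, hs.trans hKs, ?_⟩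
  · by_cases hq : q ∈ e.source
    · refine ⟨e, M.isChart p, hq, b.contDiffAt.congr_of_eventuallyEq
        ((e.open_target.eventually_mem (e.map_source hq)).mono fun z hz => ?_)⟩
      simp only [comp_apply, indicator_of_mem (e.map_target hz), e.right_inv hz]
    · exact ⟨M.ch q, M.isChart q, M.mem q, contDiffAt_const.congr_of_eventuallyEq
        (symm_eventuallyEq (M.mem q)
          (notMem_tsupport_iff_eventuallyEq.1 fun h => hq (hKs (hs h))))⟩
  · filter_upwards [e.open_source.mem_nhds hp,
      (e.continuousAt hp).eventually b.eventuallyEq_one] with q h1 h2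
    rw [indicator_of_mem h1, h2, Pi.one_apply]

end Crest.Agent.N222.Ib

end
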