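import Crest.Agent.N222.F.Basic

/-!
# Row 222, framework: the chart measures and their gluing (helper88)
-/

set_option autoImplicit false
set_option linter.unusedSectionVars false
open MeasureTheory Set Filter Topology Function
open scoped ContDiff ENNReal

noncomputable section

namespace Crest.Agent.N222.Ms0

variable {d : ℕ} {ι : Type} [Fintype ι] {X : Type} [TopologicalSpace X]
  [MeasurableSpace X] [BorelSpace X] {x : X → E ι}
  {e e' : OpenPartialHomeomorph X (E (Fin d))}

theorem jac_nonneg (J : E (Fin d) →L[ℝ] E ι) : 0 ≤ jac J := Real.sqrt_nonneg _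

theorem contOn_jac (he : IsChart x e) :
    ContinuousOn (fun z => jac (fderiv ℝ (x ∘ e.symm) z)) e.target := fun z hz =>
  (contDiffAt_jac (he.inj z hz)).continuousAt.comp_continuousWithinAt
    (he.sm.continuousOn_fderiv_of_isOpen e.open_target (by simp) z hz)

theorem aem_rho (he : IsChart x e) :
    AEMeasurable (fun z => ENNReal.ofReal (jac (fderiv ℝ (x ∘ e.symm) z)))
      (volume.restrict e.target) :=
  ((contOn_jac he).aemeasurable e.open_target.measurableSet).ennreal_ofReal

theorem memb (e : OpenPartialHomeomorph X (E (Fin d))) :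
    MeasurableEmbedding (e.target.domRestrict e.symm) :=
  e.symm.isOpenEmbedding_restrict.measurableEmbedding

/-- the measure on the model space -/
def mu0 (x : X → E ι) (e : OpenPartialHomeomorph X (E (Fin d))) : Measure (E (Fin d)) :=
  (volume.restrict e.target).withDensity fun z => ENNReal.ofReal (jac (fderiv ℝ (x ∘ e.symm) z))

theorem mu0_restrict (x : X → E ι) (e : OpenPartialHomeomorph X (E (Fin d))) :
    (mu0 x e).restrict e.target = mu0 x e := by
  rw [mu0, restrict_withDensity e.open_target.measurableSet,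
    Measure.restrict_restrict e.open_target.measurableSet, inter_self]

theorem map_coe (x : X → E ι) (e : OpenPartialHomeomorph X (E (Fin d))) :
    (Measure.comap (↑) (mu0 x e)).map ((↑) : e.target → E (Fin d)) = mu0 x e := by
  rw [map_comap_subtype_coe e.open_target.measurableSet, mu0_restrict]

theorem cm_eq (x : X → E ι) (e : OpenPartialHomeomorph X (E (Fin d))) :
    chartMeas x e = (Measure.comap (↑) (mu0 x e)).map (e.target.domRestrict e.symm) := by
  have h1 : chartMeas x e = (mu0 x e).map e.symm := rfl
  have h2 : AEMeasurable e.symm (mu0 x e) := by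
    rw [← mu0_restrict]
    exact e.continuousOn_symm.aemeasurable e.open_target.measurableSet
  rw [h1]
  conv_lhs => rw [← map_coe x e]
  rw [AEMeasurable.map_map_of_aemeasurable (by rw [map_coe]; exact h2)
    measurable_subtype_coe.aemeasurable]
  rfl

theorem lint (he : IsChart x e) (f : X → ℝ≥0∞) : ∫⁻ p, f p ∂chartMeas x e =
    ∫⁻ z in e.target, ENNReal.ofReal (jac (fderiv ℝ (x ∘ e.symm) z)) * f (e.symm z) := by
  rw [cm_eq, (memb e).lintegral_map]
  have h := (MeasurableEmbedding.subtype_coe e.open_target.measurableSet).lintegral_map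
    (μ := Measure.comap (↑) (mu0 x e)) fun z => f (e.symm z)
  rw [map_coe] at h
  refine Eq.trans h.symm ?_
  rw [mu0, lintegral_withDensity_eq_lintegral_mul_non_measurable₀ _ (aem_rho he)
    (Eventually.of_forall fun _ => ENNReal.ofReal_lt_top)]
  rfl

theorem int {F : Type} [NormedAddCommGroup F] [NormedSpace ℝ F] (he : IsChart x e) (f : X → F) :
    ∫ p, f p ∂chartMeas x e =
      ∫ z in e.target, jac (fderiv ℝ (x ∘ e.symm) z) • f (e.symm z) := by
  rw [cm_eq, (memb e).integral_map]
  have h := (MeasurableEmbedding.subtype_coe e.open_target.measurableSet).integral_map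
    (μ := Measure.comap (↑) (mu0 x e)) fun z => f (e.symm z)
  rw [map_coe] at h
  refine Eq.trans h.symm ?_
  rw [mu0, integral_withDensity_eq_integral_toReal_smul₀ (aem_rho he)
    (Eventually.of_forall fun _ => ENNReal.ofReal_lt_top)]
  simp only [ENNReal.toReal_ofReal (jac_nonneg _)]

theorem intg {F : Type} [NormedAddCommGroup F] [NormedSpace ℝ F] (he : IsChart x e) (f : X → F) :
    Integrable f (chartMeas x e) ↔
      IntegrableOn (fun z => jac (fderiv ℝ (x ∘ e.symm) z) • f (e.symm z)) e.target := by
  rw [cm_eq, (memb e).integrable_map_iff]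
  have h := (MeasurableEmbedding.subtype_coe e.open_target.measurableSet).integrable_map_iff
    (μ := Measure.comap (↑) (mu0 x e)) (g := fun z => f (e.symm z))
  rw [map_coe] at h
  refine Iff.trans h.symm ?_
  rw [mu0, integrable_withDensity_iff_integrable_smul₀' (aem_rho he)
    (Eventually.of_forall fun _ => ENNReal.ofReal_lt_top)]
  simp only [ENNReal.toReal_ofReal (jac_nonneg _)]
  rfl

theorem meas_pre (e : OpenPartialHomeomorph X (E (Fin d))) {s : Set X} (hs : MeasurableSet s) :
    MeasurableSet (e.target ∩ e.symm ⁻¹' s) := by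
  have h := (MeasurableEmbedding.subtype_coe e.open_target.measurableSet).measurableSet_image.2
    ((memb e).measurable hs)
  convert h using 1
  ext z
  simp only [mem_inter_iff, mem_preimage, mem_image, Subtype.exists, exists_and_right,
    exists_eq_right]
  exact ⟨fun h => ⟨h.1, h.2⟩, fun ⟨h1, h2⟩ => ⟨h1, h2⟩⟩

theorem cm_apply (he : IsChart x e) {s : Set X} (hs : MeasurableSet s) : chartMeas x e s =
    ∫⁻ z in e.target ∩ e.symm ⁻¹' s, ENNReal.ofReal (jac (fderiv ℝ (x ∘ e.symm) z)) := by
  rw [← lintegral_indicator_one hs, lint he, ← lintegral_indicator (meas_pre e hs),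
    ← lintegral_indicator e.open_target.measurableSet]
  congr 1
  funext z
  by_cases h1 : z ∈ e.target <;> by_cases h2 : e.symm z ∈ s <;> simp [indicator, h1, h2]

theorem cm_restrict (he : IsChart x e) (he' : IsChart x e') :
    (chartMeas x e).restrict e'.source = (chartMeas x e').restrict e.source := by
  ext s hs
  have m1 := hs.inter e'.open_source.measurableSet
  have m2 := hs.inter e.open_source.measurableSet
  rw [Measure.restrict_apply hs, Measure.restrict_apply hs, cm_apply he m1, cm_apply he' m2]
  have hT : ∀ z ∈ e.target ∩ e.symm ⁻¹' (s ∩ e'.source),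
      DifferentiableAt ℝ (e' ∘ e.symm) z := fun z hz =>
    (he'.smooth_map (j := id) (e' := e) hz.1 continuousAt_id hz.2.2
      (he.sm.contDiffAt (e.open_target.mem_nhds hz.1))).differentiableAt (by simp)
  have himg : (e' ∘ e.symm) '' (e.target ∩ e.symm ⁻¹' (s ∩ e'.source)) =
      e'.target ∩ e'.symm ⁻¹' (s ∩ e.source) := by
    ext w
    constructor
    · rintro ⟨z, ⟨h1, h2, h3⟩, rfl⟩
      refine ⟨e'.map_source h3, ?_⟩
      simp only [mem_preimage, comp_apply, e'.left_inv h3]
      exact ⟨h2, e.map_target h1⟩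
    · rintro ⟨h1, h2, h3⟩
      refine ⟨e (e'.symm w), ⟨e.map_source h3, ?_⟩, ?_⟩
      · simp only [mem_preimage, e.left_inv h3]
        exact ⟨h2, e'.map_target h1⟩
      · simp only [comp_apply, e.left_inv h3, e'.right_inv h1]
  have hinj : InjOn (e' ∘ e.symm) (e.target ∩ e.symm ⁻¹' (s ∩ e'.source)) :=
    fun z hz w hw h => e.symm.injOn hz.1 hw.1 (e'.injOn hz.2.2 hw.2.2 h)
  rw [← himg, lintegral_image_eq_lintegral_abs_det_fderiv_mul volume (meas_pre e m1)
    (fun z hz => (hT z hz).hasFDerivAt.hasFDerivWithinAt) hinj]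
  refine setLIntegral_congr_fun (meas_pre e m1) fun z hz => ?_
  have h1 : (x ∘ e.symm) =ᶠ[𝓝 z] (x ∘ e'.symm) ∘ (e' ∘ e.symm) := by
    have : ∀ᶠ w in 𝓝 z, e.symm w ∈ e'.source :=
      (e.continuousAt_symm hz.1).preimage_mem_nhds (e'.open_source.mem_nhds hz.2.2)
    exact this.mono fun w hw => by simp only [comp_apply, e'.left_inv hw]
  have h2 : DifferentiableAt ℝ (x ∘ e'.symm) ((e' ∘ e.symm) z) :=
    (he'.sm.contDiffAt (e'.open_target.mem_nhds (e'.map_source hz.2.2))).differentiableAt (by simp)
  rw [h1.fderiv_eq, fderiv_comp z h2 (hT z hz), jac_comp, mul_comm,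
    ENNReal.ofReal_mul (abs_nonneg _)]

theorem cm_self (he : IsChart x e) : (chartMeas x e).restrict e.source = chartMeas x e := by
  ext s hs
  rw [Measure.restrict_apply hs, cm_apply he hs, cm_apply he (hs.inter e.open_source.measurableSet)]
  congr 2
  ext z
  exact ⟨fun h => ⟨h.1, h.2.1⟩, fun h => ⟨h.1, h.2, e.map_target h.1⟩⟩

variable [SecondCountableTopology X]

theorem ext_cover {μ ν : Measure X} {U : X → Set X} (hU : ∀ p, U p ∈ 𝓝 p)
    (h : ∀ p, μ.restrict (U p) = ν.restrict (U p)) : μ = ν := by
  obtain ⟨T, hT, hc⟩ := TopologicalSpace.countable_cover_nhds hU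
  have := hT.to_subtype
  exact Measure.ext_of_iUnion_eq_univ (s := fun p : T => U p) (by rw [← hc, biUnion_eq_iUnion])
    fun p => h p

theorem glue {μ : Measure X} (h : ∀ p, ∃ e : OpenPartialHomeomorph X (E (Fin d)),
    IsChart x e ∧ p ∈ e.source ∧ μ.restrict e.source = chartMeas x e) (he' : IsChart x e') :
    μ.restrict e'.source = chartMeas x e' := by
  choose c hc hp hμ using h
  refine ext_cover (U := fun p => (c p).source) (fun p => (c p).open_source.mem_nhds (hp p))
    fun p => ?_
  rw [Measure.restrict_comm (c p).open_source.measurableSet, hμ p, cm_restrict (hc p) he']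

theorem exists_mu (M : Imm d ι X) :
    ∃ μ : Measure X, ∀ p, μ.restrict (M.ch p).source = chartMeas M.x (M.ch p) := by
  rcases isEmpty_or_nonempty X with hX | hX
  · exact ⟨0, fun p => hX.elim p⟩
  obtain ⟨T, hT, hc⟩ := TopologicalSpace.countable_cover_nhds
    (f := fun p => (M.ch p).source) fun p => (M.ch p).open_source.mem_nhds (M.mem p)
  have hne : T.Nonempty := by
    by_contra h0
    rw [not_nonempty_iff_eq_empty] at h0
    rw [h0] at hc
    simp only [mem_empty_iff_false, iUnion_of_empty, iUnion_empty] at hc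
    exact empty_ne_univ hc
  obtain ⟨c, rfl⟩ := hT.exists_eq_range hne
  rw [biUnion_range] at hc
  set U : ℕ → Set X := fun n => (M.ch (c n)).source with hU
  have hUm : ∀ n, MeasurableSet (U n) := fun n => (M.ch (c n)).open_source.measurableSet
  have hD := MeasurableSet.disjointed hUm
  refine ⟨Measure.sum fun n => (chartMeas M.x (M.ch (c n))).restrict (disjointed U n), fun p => ?_⟩
  rw [Measure.restrict_sum _ (M.ch p).open_source.measurableSet]
  have : ∀ n, ((chartMeas M.x (M.ch (c n))).restrict (disjointed U n)).restrict (M.ch p).source =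
      (chartMeas M.x (M.ch p)).restrict (disjointed U n) := by
    intro n
    rw [Measure.restrict_comm (M.ch p).open_source.measurableSet,
      cm_restrict (M.isChart _) (M.isChart p), Measure.restrict_restrict (hD n),
      inter_eq_left.2 (disjointed_subset U n)]
  simp only [this]
  rw [← Measure.restrict_iUnion (disjoint_disjointed U) hD, iUnion_disjointed, hc,
    Measure.restrict_univ]

theorem mu_spec (M : Imm d ι X) (p : X) :
    M.mu.restrict (M.ch p).source = chartMeas M.x (M.ch p) := by
  have h := exists_mu M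
  have : M.mu = h.choose := by
    unfold Imm.mu
    exact dif_pos h
  rw [this]
  exact h.choose_spec p

theorem mu_restrict {M : Imm d ι X} (he : IsChart M.x e) :
    M.mu.restrict e.source = chartMeas M.x e :=
  glue (fun p => ⟨M.ch p, M.isChart p, M.mem p, mu_spec M p⟩) he

theorem eq_mu {M : Imm d ι X} {μ : Measure X}
    (h : ∀ p, ∃ e : OpenPartialHomeomorph X (E (Fin d)),
      IsChart M.x e ∧ p ∈ e.source ∧ μ.restrict e.source = chartMeas M.x e) : μ = M.mu :=
  ext_cover (U := fun p => (M.ch p).source) (fun p => (M.ch p).open_source.mem_nhds (M.mem p))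
    fun p => by rw [glue h (M.isChart p), mu_spec]

theorem mu_chart {M : Imm d ι X} (he : IsChart M.x e) {s : Set X} (hs : s ⊆ e.source)
    (hm : MeasurableSet s) :
    M.mu s = ∫⁻ z in e '' s, ENNReal.ofReal (jac (fderiv ℝ (M.x ∘ e.symm) z)) := by
  rw [e.image_eq_target_inter_inv_preimage hs, ← cm_apply he hm, ← mu_restrict he,
    Measure.restrict_apply hm, inter_eq_left.2 hs]

theorem locFin (M : Imm d ι X) : IsLocallyFiniteMeasure M.mu := by
  refine ⟨fun p => ?_⟩
  set e := M.ch p
  have he : IsChart M.x e := M.isChart p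
  have hp : e p ∈ e.target := e.map_source (M.mem p)
  obtain ⟨K, hK, hKp, hKt⟩ := exists_compact_subset e.open_target hp
  have hs : e.source ∩ e ⁻¹' interior K ∈ 𝓝 p :=
    (e.isOpen_inter_preimage isOpen_interior).mem_nhds ⟨M.mem p, hKp⟩
  refine ⟨_, hs, ?_⟩
  rw [mu_chart he inter_subset_left (e.isOpen_inter_preimage isOpen_interior).measurableSet]
  have h1 : e '' (e.source ∩ e ⁻¹' interior K) ⊆ K := by
    rintro _ ⟨q, hq, rfl⟩
    exact interior_subset hq.2
  refine (lintegral_mono_set h1).trans_lt ?_
  exact (((contOn_jac he).mono hKt).integrableOn_compact hK).setLIntegral_lt_top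

theorem openPos (M : Imm d ι X) : M.mu.IsOpenPosMeasure := by
  refine ⟨fun U hU ⟨p, hp⟩ h0 => ?_⟩
  set e := M.ch p
  have he : IsChart M.x e := M.isChart p
  have ho : IsOpen (U ∩ e.source) := hU.inter e.open_source
  have h1 : M.mu (U ∩ e.source) = 0 := measure_mono_null inter_subset_left h0
  have ho' : IsOpen (e '' (U ∩ e.source)) := e.isOpen_image_of_subset_source ho inter_subset_right
  have hsub : e '' (U ∩ e.source) ⊆ e.target := by
    rintro _ ⟨q, hq, rfl⟩
    exact e.map_source hq.2
  rw [mu_chart he inter_subset_right ho.measurableSet,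
    lintegral_eq_zero_iff' ((aem_rho he).mono_measure (Measure.restrict_mono hsub le_rfl))] at h1
  have h2 : ∀ᵐ z ∂(volume.restrict (e '' (U ∩ e.source))), False := by
    filter_upwards [h1, ae_restrict_mem ho'.measurableSet] with z hz hz'
    have := jac_pos (he.inj z (hsub hz'))
    simp only [Pi.zero_apply, ENNReal.ofReal_eq_zero] at hz
    linarith
  rw [eventually_false_iff_eq_bot, ae_eq_bot, Measure.restrict_eq_zero] at h2
  exact (ho'.measure_pos volume ⟨e p, p, ⟨hp, M.mem p⟩, rfl⟩).ne' h2

theorem locallyCompact (M : Imm d ι X) : LocallyCompactSpace X := by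
  let _ : ChartedSpace (E (Fin d)) X :=
    { atlas := range M.ch
      chartAt := M.ch
      mem_chart_source := M.mem
      chart_mem_atlas := fun p => mem_range_self p }
  exact ChartedSpace.locallyCompactSpace (E (Fin d)) X

end Crest.Agent.N222.Ms0

end
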