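import Crest.Agent.N222.F.Hess
import Crest.Agent.N222.F.Meas0
import Crest.Agent.N222.F.IBP0

/-!
# Row 222, framework: the area measure, integration by parts
(SKELETON: fill in place, statements frozen; add lemmas freely)
-/

set_option autoImplicit false
set_option linter.unusedSectionVars false
open MeasureTheory Set Filter Topology Function
open scoped ContDiff InnerProductSpace RealInnerProductSpace ENNReal

noncomputable section

namespace Crest.Agent.N222.Imm

variable {d : ℕ} {ι : Type} [Fintype ι] {X : Type} [TopologicalSpace X]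
  [T2Space X] [SecondCountableTopology X] [MeasurableSpace X] [BorelSpace X]
  {M : Imm d ι X} {e : OpenPartialHomeomorph X (E (Fin d))} {p : X}

/-! ### the measure in charts -/

/-- change of charts -/
theorem chartMeas_restrict {e' : OpenPartialHomeomorph X (E (Fin d))} (he : IsChart M.x e)
    (he' : IsChart M.x e') :
    (chartMeas M.x e).restrict e'.source = (chartMeas M.x e').restrict e.source := by
  exact Ms0.cm_restrict he he'

theorem mu_restrict (he : IsChart M.x e) : M.mu.restrict e.source = chartMeas M.x e := by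
  exact Ms0.mu_restrict he

/-- uniqueness -/
theorem eq_mu {μ : Measure X} (h : ∀ p, ∃ e : OpenPartialHomeomorph X (E (Fin d)),
    IsChart M.x e ∧ p ∈ e.source ∧ μ.restrict e.source = chartMeas M.x e) : μ = M.mu := by
  exact Ms0.eq_mu h

theorem setLIntegral_chart (he : IsChart M.x e) (f : X → ℝ≥0∞) :
    ∫⁻ p in e.source, f p ∂M.mu =
      ∫⁻ z in e.target, ENNReal.ofReal (jac (fderiv ℝ (M.x ∘ e.symm) z)) * f (e.symm z) := by
  rw [mu_restrict he, Ms0.lint he]

theorem setIntegral_chart {F : Type} [NormedAddCommGroup F] [NormedSpace ℝ F]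
    (he : IsChart M.x e) (f : X → F) : ∫ p in e.source, f p ∂M.mu =
      ∫ z in e.target, jac (fderiv ℝ (M.x ∘ e.symm) z) • f (e.symm z) := by
  rw [mu_restrict he, Ms0.int he]

theorem integral_chart {F : Type} [NormedAddCommGroup F] [NormedSpace ℝ F]
    (he : IsChart M.x e) {f : X → F} (hf : support f ⊆ e.source) : ∫ p, f p ∂M.mu =
      ∫ z in e.target, jac (fderiv ℝ (M.x ∘ e.symm) z) • f (e.symm z) := by
  rw [← setIntegral_chart he, setIntegral_eq_integral_of_forall_compl_eq_zero]
  intro p hp
  by_contra h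
  exact hp (hf h)

theorem integrableOn_chart {F : Type} [NormedAddCommGroup F] [NormedSpace ℝ F]
    (he : IsChart M.x e) (f : X → F) : IntegrableOn f e.source M.mu ↔
      IntegrableOn (fun z => jac (fderiv ℝ (M.x ∘ e.symm) z) • f (e.symm z)) e.target := by
  rw [IntegrableOn, mu_restrict he, Ms0.intg he]

theorem mu_chart (he : IsChart M.x e) {s : Set X} (hs : s ⊆ e.source) (hm : MeasurableSet s) :
    M.mu s = ∫⁻ z in e '' s, ENNReal.ofReal (jac (fderiv ℝ (M.x ∘ e.symm) z)) := by
  exact Ms0.mu_chart he hs hm

theorem continuousOn_jac (he : IsChart M.x e) :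
    ContinuousOn (fun z => jac (fderiv ℝ (M.x ∘ e.symm) z)) e.target := by
  exact Ms0.contOn_jac he

include M in
theorem locallyCompact : LocallyCompactSpace X := by
  exact Ms0.locallyCompact M

instance (M : Imm d ι X) : IsLocallyFiniteMeasure M.mu := by
  exact Ms0.locFin M

instance (M : Imm d ι X) : IsFiniteMeasureOnCompacts M.mu := inferInstance

instance (M : Imm d ι X) : M.mu.IsOpenPosMeasure := by
  exact Ms0.openPos M

/-! ### integration by parts -/

variable [DecidableEq ι] {f g F : X → ℝ} {Y : ι → X → ℝ}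

/-- continuously differentiable functions -/
structure C1 (M : Imm d ι X) (f : X → ℝ) : Prop where
  diff : ∀ p, M.DiffAt f p
  cont : ∀ a, Continuous (M.pre.D a f)

theorem Sm.c1 (hf : M.Sm f) : M.C1 f := ⟨hf.diffAt, fun a => (hf.D a).continuous⟩

theorem C1.continuous (hf : M.C1 f) : Continuous f := by
  refine continuous_iff_continuousAt.2 fun p => ?_
  refine ((hf.diff p).continuousAt.comp ((M.ch p).continuousAt (M.mem p))).congr ?_
  filter_upwards [(M.ch p).open_source.mem_nhds (M.mem p)] with q hq
  simp only [comp_apply, (M.ch p).left_inv hq]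

theorem C1.mul (hf : M.C1 f) (hg : M.C1 g) : M.C1 fun p => f p * g p := by
  refine ⟨fun p => DifferentiableAt.mul (hf.diff p) (hg.diff p), fun a => ?_⟩
  rw [show M.pre.D a (fun p => f p * g p) = _ from funext fun p => D_mul (hf.diff p) (hg.diff p) a]
  exact (hf.continuous.mul (hg.cont a)).add ((hf.cont a).mul hg.continuous)

theorem C1.comp (hf : M.C1 f) {φ : ℝ → ℝ} (hφ : ContDiff ℝ 1 φ) : M.C1 fun p => φ (f p) := by
  have hd := hφ.differentiable one_ne_zero
  refine ⟨fun p => (hf.diff p).comp (hd _), fun a => ?_⟩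
  rw [show M.pre.D a (fun p => φ (f p)) = _ from
    funext fun p => D_comp (hf.diff p) (hd _).hasDerivAt a]
  exact ((hφ.continuous_deriv le_rfl).comp hf.continuous).mul (hf.cont a)

/-- `C¹` functions of a smooth map -/
theorem Sm.c1_comp {Z : Type} [NormedAddCommGroup Z] [NormedSpace ℝ Z] {y : X → Z} (hy : M.Sm y)
    {φ : Z → ℝ} (hφ : ContDiff ℝ 1 φ) : M.C1 fun p => φ (y p) := by
  have hd := hφ.differentiable one_ne_zero
  refine ⟨fun p => (hy.diffAt p).comp (hd _), fun a => ?_⟩
  have e : M.pre.D a (fun p => φ (y p)) = fun p => fderiv ℝ φ (y p) (M.td y p (ee a)) :=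
    funext fun p => congrArg (fun T : E ι →L[ℝ] ℝ => T (ee a)) (td_comp (hy.diffAt p) (hd _))
  rw [e]
  exact ((hφ.continuous_fderiv one_ne_zero).comp hy.continuous).clm_apply
    (hy.td.continuous.clm_apply continuous_const)

theorem C1.integrable_D (hf : M.C1 f) (hc : HasCompactSupport f) (a : ι) :
    Integrable (M.pre.D a f) M.mu :=
  (hf.cont a).integrable_of_hasCompactSupport
    (HasCompactSupport.intro hc fun _ hp => D_eq_zero_of_notMem hp a)

theorem C1.integrable_H (hf : M.C1 f) (hc : HasCompactSupport f) (a : ι) :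
    Integrable (fun p => M.pre.H a p * f p) M.mu :=
  ((M.sm_H a).continuous.mul hf.continuous).integrable_of_hasCompactSupport hc.mul_left

theorem integral_D_add (hf : M.C1 f) (hc : HasCompactSupport f) (a : ι) :
    ∫ p, (M.pre.D a f p + M.pre.H a p * f p) ∂M.mu = 0 := by
  classical
  choose χ h1 h2 h3 using Ib.exists_chi M
  obtain ⟨t, -, ht⟩ := hc.isCompact.elim_nhds_subcover (fun p => interior {q | χ p q = 1})
    fun p _ => interior_mem_nhds.2 (h3 p)
  induction t using Finset.induction_on generalizing f with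
  | empty =>
    have : f = 0 := tsupport_eq_empty_iff.1 (by simpa using ht)
    simp [this, Pi.zero_def, D_const]
  | insert p t _ ih =>
    have g1 := hf.mul (h1 p).c1
    have g2 := hf.mul ((sm_const 1).sub (h1 p)).c1
    have c1 : HasCompactSupport fun q => f q * χ p q := hc.mul_right
    have c2 : HasCompactSupport fun q => f q * (1 - χ p q) := hc.mul_right
    have e1 := Ib.local_ibp (M.isChart p) g1.diff g1.cont c1
      ((tsupport_mul_subset_right).trans (h2 p)) a
    have e2 := ih g2 c2 fun q hq => by
      have := ht (tsupport_mul_subset_left hq)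
      rw [Finset.set_biUnion_insert] at this
      refine this.resolve_left fun h => notMem_tsupport_iff_eventuallyEq.2 ?_ hq
      filter_upwards [mem_interior_iff_mem_nhds.1 h] with y hy
      rw [hy, sub_self, mul_zero, Pi.zero_apply]
    have i1 : Integrable (fun q => M.pre.D a (fun q => f q * χ p q) q
      + M.pre.H a q * (f q * χ p q)) M.mu := (g1.integrable_D c1 a).add (g1.integrable_H c1 a)
    have i2 : Integrable (fun q => M.pre.D a (fun q => f q * (1 - χ p q)) q
      + M.pre.H a q * (f q * (1 - χ p q))) M.mu := (g2.integrable_D c2 a).add (g2.integrable_H c2 a)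
    have e3 := integral_add i1 i2
    rw [e1, e2, add_zero] at e3
    rw [← e3]
    refine integral_congr_ae (ae_of_all _ fun q => ?_)
    have e4 := D_add (g1.diff q) (g2.diff q) a
    rw [show (fun q => f q * χ p q + f q * (1 - χ p q)) = f from funext fun q => by ring] at e4
    simp only [e4]
    ring

/-- **First variation**: `∫ D_a f = - ∫ H_a f`. -/
theorem integral_D (hf : M.C1 f) (hc : HasCompactSupport f) (a : ι) :
    ∫ p, M.pre.D a f p ∂M.mu = -∫ p, M.pre.H a p * f p ∂M.mu := by
  rw [eq_neg_iff_add_eq_zero, ← integral_add (hf.integrable_D hc a) (hf.integrable_H hc a)]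
  exact integral_D_add hf hc a

/-- divergence theorem for arbitrary fields -/
theorem integral_dv (hY : ∀ a, M.C1 (Y a)) (hc : ∀ a, HasCompactSupport (Y a)) :
    ∫ p, M.pre.dv Y p ∂M.mu = -∫ p, ∑ a, M.pre.H a p * Y a p ∂M.mu := by
  simp only [dv_apply]
  rw [integral_finsetSum _ fun a _ => (hY a).integrable_D (hc a) a,
    integral_finsetSum _ fun a _ => (hY a).integrable_H (hc a) a, ← Finset.sum_neg_distrib]
  exact Finset.sum_congr rfl fun a _ => integral_D (hY a) (hc a) a

/-- divergence theorem for tangential fields -/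
theorem integral_dv_tan (hY : ∀ a, M.C1 (Y a)) (hc : ∀ a, HasCompactSupport (Y a))
    (ht : M.pre.Tan Y) : ∫ p, M.pre.dv Y p ∂M.mu = 0 := by
  simp only [integral_dv hY hc, H_tan ht, integral_zero, neg_zero]

theorem C1.continuous_dv (hY : ∀ a, M.C1 (Y a)) : Continuous (M.pre.dv Y) := by
  rw [show M.pre.dv Y = _ from funext (dv_apply Y)]
  exact continuous_finsetSum _ fun a _ => (hY a).cont a

theorem C1.continuous_dir (hY : ∀ a, M.C1 (Y a)) (hf : M.C1 f) : Continuous (M.pre.dir Y f) := by
  rw [show M.pre.dir Y f = _ from funext (dir_apply Y f)]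
  exact continuous_finsetSum _ fun a _ => (hY a).continuous.mul (hf.cont a)

theorem dir_eq_zero_of_notMem (Y : ι → X → ℝ) (hp : p ∉ tsupport f) : M.pre.dir Y f p = 0 := by
  simp only [dir_apply, D_eq_zero_of_notMem hp, mul_zero, Finset.sum_const_zero]

theorem integral_mul_dv (hf : M.C1 f) (hc : HasCompactSupport f) (hY : ∀ a, M.C1 (Y a))
    (ht : M.pre.Tan Y) : ∫ p, f p * M.pre.dv Y p ∂M.mu = -∫ p, M.pre.dir Y f p ∂M.mu := by
  have h := integral_dv_tan (Y := fun a p => f p * Y a p) (fun a => hf.mul (hY a))
    (fun a => hc.mul_right) fun a => funext fun p => by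
      have := congrFun (ht a) p
      simp only [Finset.sum_apply, Pi.mul_apply] at this ⊢
      simp only [← this, Finset.mul_sum, mul_left_comm]
  have i1 : Integrable (fun p => f p * M.pre.dv Y p) M.mu :=
    (hf.continuous.mul (C1.continuous_dv hY)).integrable_of_hasCompactSupport hc.mul_right
  have i2 : Integrable (fun p => M.pre.dir Y f p) M.mu :=
    (C1.continuous_dir hY hf).integrable_of_hasCompactSupport
      (HasCompactSupport.intro hc fun _ hp => dir_eq_zero_of_notMem Y hp)
  rw [eq_neg_iff_add_eq_zero, ← integral_add i1 i2, ← h]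
  refine integral_congr_ae (ae_of_all _ fun p => ?_)
  simp only [dv_apply, dir_apply, D_mul (hf.diff p) ((hY _).diff p), Finset.sum_add_distrib,
    Finset.mul_sum, mul_comm]

theorem dir_D (f g : X → ℝ) (p : X) :
    M.pre.dir (fun a => M.pre.D a g) f p = M.pre.gam f g p := by
  simp only [dir_apply, gam_apply, mul_comm]

theorem integral_mul_lap (hf : M.C1 f) (hc : HasCompactSupport f) (hg : M.Sm g) :
    ∫ p, f p * M.pre.lap g p ∂M.mu = -∫ p, M.pre.gam f g p ∂M.mu := by
  have h := integral_mul_dv hf hc (fun a => (hg.D a).c1) (tan_D g)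
  simp only [dir_D] at h
  exact h

theorem integral_mul_dvF (hf : M.C1 f) (hc : HasCompactSupport f) (hY : ∀ a, M.C1 (Y a))
    (ht : M.pre.Tan Y) (hF : M.Sm F) : ∫ p, f p * M.pre.dvF F Y p * Real.exp (F p) ∂M.mu =
      -∫ p, M.pre.dir Y f p * Real.exp (F p) ∂M.mu := by
  have h := integral_mul_dv (hf.mul hF.exp.c1) hc.mul_right hY ht
  have ce := hF.exp.continuous
  have i1 : Integrable (fun p => f p * Real.exp (F p) * M.pre.dv Y p) M.mu :=
    ((hf.continuous.mul ce).mul (C1.continuous_dv hY)).integrable_of_hasCompactSupport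
      hc.mul_right.mul_right
  have i2 : Integrable (fun p => f p * (Real.exp (F p) * M.pre.dir Y F p)) M.mu :=
    (hf.continuous.mul (ce.mul (C1.continuous_dir hY hF.c1))).integrable_of_hasCompactSupport
      hc.mul_right
  have i3 : Integrable (fun p => M.pre.dir Y f p * Real.exp (F p)) M.mu :=
    ((C1.continuous_dir hY hf).mul ce).integrable_of_hasCompactSupport
      (HasCompactSupport.intro hc fun _ hp => by
        rw [Pi.mul_apply, dir_eq_zero_of_notMem Y hp, zero_mul])
  have e1 : ∀ p, M.pre.dir Y (fun p => f p * Real.exp (F p)) p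
      = f p * (Real.exp (F p) * M.pre.dir Y F p) + M.pre.dir Y f p * Real.exp (F p) := fun p => by
    simp only [dir_apply, D_mul (hf.diff p) (hF.exp.diffAt p),
      D_comp (hF.diffAt p) (Real.hasDerivAt_exp _), Finset.mul_sum, Finset.sum_mul,
      ← Finset.sum_add_distrib]
    exact Finset.sum_congr rfl fun a _ => by ring
  have e2 : ∀ p, f p * M.pre.dvF F Y p * Real.exp (F p) = f p * Real.exp (F p) * M.pre.dv Y p
      + f p * (Real.exp (F p) * M.pre.dir Y F p) := fun p => by
    simp only [Pre.dvF, Pi.add_apply]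
    ring
  simp only [e1, e2] at h ⊢
  rw [integral_add i2 i3] at h
  rw [integral_add i1 i2, h]
  ring

theorem integral_mul_lapF (hf : M.C1 f) (hc : HasCompactSupport f) (hg : M.Sm g) (hF : M.Sm F) :
    ∫ p, f p * M.pre.lapF F g p * Real.exp (F p) ∂M.mu =
      -∫ p, M.pre.gam f g p * Real.exp (F p) ∂M.mu := by
  have h := integral_mul_dvF hf hc (fun a => (hg.D a).c1) (tan_D g) hF
  simp only [Pre.dvF, Pi.add_apply, dir_D] at h
  exact h

/-- continuous functions that vanish off the support of a test function are integrable -/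
theorem integrable_of_support {z : X → ℝ} (hz : HasCompactSupport z) (hf : Continuous f)
    (h : ∀ p, p ∉ tsupport z → f p = 0) : Integrable f M.mu :=
  hf.integrable_of_hasCompactSupport (HasCompactSupport.intro hz h)

end Crest.Agent.N222.Imm

end
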