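import Crest.Agent.N222.G.Defs

/-!
# Row 222, the framework (helper10): FROZEN definitions

`Imm d ι X` : a map `x : X → ℝ^ι` and charts in which `x` is a smooth immersion.
Covers, graphs, doubles, slices and open subsets are all instances.
-/

set_option autoImplicit false
open MeasureTheory Set Filter Topology Function
open scoped ContDiff InnerProductSpace

noncomputable section

namespace Crest.Agent.N222

/-- Euclidean space -/
abbrev E (ι : Type) : Type := EuclideanSpace ℝ ι

/-- standard basis -/
abbrev ee {ι : Type} [DecidableEq ι] (a : ι) : E ι := EuclideanSpace.single a 1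

variable {d : ℕ} {ι : Type} [Fintype ι] {X : Type} [TopologicalSpace X]

/-- `J (Jᵀ J)⁻¹` -/
def Lam (J : E (Fin d) →L[ℝ] E ι) : E (Fin d) →L[ℝ] E ι :=
  J ∘L Ring.inverse (ContinuousLinearMap.adjoint J ∘L J)

/-- `√ det (Jᵀ J)` -/
def jac (J : E (Fin d) →L[ℝ] E ι) : ℝ := √(ContinuousLinearMap.adjoint J ∘L J).det

/-- charts in which `x` is a smooth immersion -/
structure IsChart (x : X → E ι) (e : OpenPartialHomeomorph X (E (Fin d))) : Prop where
  sm : ContDiffOn ℝ ∞ (x ∘ e.symm) e.target
  inj : ∀ z ∈ e.target, Injective (fderiv ℝ (x ∘ e.symm) z)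

/-- immersed manifolds -/
structure Imm (d : ℕ) (ι : Type) [Fintype ι] (X : Type) [TopologicalSpace X] where
  x : X → E ι
  ch : X → OpenPartialHomeomorph X (E (Fin d))
  mem : ∀ p, p ∈ (ch p).source
  isChart : ∀ p, IsChart x (ch p)

/-- smooth functions with respect to an atlas -/
def SmA {F : Type} [NormedAddCommGroup F] [NormedSpace ℝ F]
    (ch : X → OpenPartialHomeomorph X (E (Fin d))) (f : X → F) : Prop :=
  ∀ p, ContDiffOn ℝ ∞ (f ∘ (ch p).symm) (ch p).target

/-- the algebra of smooth functions -/
def SmR (ch : X → OpenPartialHomeomorph X (E (Fin d))) : Subalgebra ℝ (X → ℝ) where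
  carrier := {f | SmA ch f}
  mul_mem' {_ _} hf hg p := (hf p).mul (hg p)
  add_mem' {_ _} hf hg p := (hf p).add (hg p)
  algebraMap_mem' _ _ := contDiffOn_const

/-- the area measure of one chart -/
def chartMeas [MeasurableSpace X] (x : X → E ι) (e : OpenPartialHomeomorph X (E (Fin d))) :
    Measure X :=
  ((volume.restrict e.target).withDensity
    fun z => ENNReal.ofReal (jac (fderiv ℝ (x ∘ e.symm) z))).map e.symm

namespace Imm

variable (M : Imm d ι X)

/-- smooth functions -/
abbrev Sm {F : Type} [NormedAddCommGroup F] [NormedSpace ℝ F] (f : X → F) : Prop := SmA M.ch f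

/-- differentiable at a point -/
def DiffAt {F : Type} [NormedAddCommGroup F] [NormedSpace ℝ F] (f : X → F) (p : X) : Prop :=
  DifferentiableAt ℝ (f ∘ (M.ch p).symm) (M.ch p p)

/-- smooth with compact support -/
structure Tst (f : X → ℝ) : Prop where
  sm : M.Sm f
  cs : HasCompactSupport f

/-- differential of `x` in the preferred chart -/
def J (p : X) : E (Fin d) →L[ℝ] E ι := fderiv ℝ (M.x ∘ (M.ch p).symm) (M.ch p p)

/-- tangential derivative: `td f p w` is the derivative of `f` along the tangential part of `w` -/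
def td {F : Type} [NormedAddCommGroup F] [NormedSpace ℝ F] (f : X → F) (p : X) : E ι →L[ℝ] F :=
  fderiv ℝ (f ∘ (M.ch p).symm) (M.ch p p) ∘L ContinuousLinearMap.adjoint (Lam (M.J p))

/-- the projection onto the tangent space as an operator -/
def PL (p : X) : E ι →L[ℝ] E ι := M.td M.x p

variable [DecidableEq ι]

/-- the delta-calculus on all functions -/
def pre : Pre (X → ℝ) ι where
  x a p := M.x p a
  D a f p := M.td f p (ee a)

/-- gradient as an ambient vector -/
def grad (f : X → ℝ) (p : X) : E ι := WithLp.toLp 2 fun a => M.pre.D a f p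

/-- `1 / √(1 + |∇u|²)` -/
def vv (u : X → ℝ) (p : X) : ℝ := (√(1 + M.pre.gam u u p))⁻¹

/-- the area measure -/
def mu [MeasurableSpace X] : Measure X := by
  classical
  exact if h : ∃ μ : Measure X, ∀ p, μ.restrict (M.ch p).source = chartMeas M.x (M.ch p)
    then h.choose else 0

end Imm

/-- `(t, y) ∈ ℝ × ℝ^ι` as a point of `ℝ^(Option ι)` -/
def up (t : ℝ) (y : E ι) : E (Option ι) := WithLp.toLp 2 fun c => c.elim t fun a => y a

/-- the horizontal part -/
def down (y : E (Option ι)) : E ι := WithLp.toLp 2 fun a => y (some a)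

theorem contDiff_up : ContDiff ℝ ∞ fun q : ℝ × E ι => up q.1 q.2 := by
  refine contDiff_euclidean.2 fun c => ?_
  cases c with
  | none => exact contDiff_fst
  | some a => exact (contDiff_euclidean.1 contDiff_snd) a

theorem contDiff_down : ContDiff ℝ ∞ (down : E (Option ι) → E ι) :=
  contDiff_euclidean.2 fun a => (contDiff_euclidean.1 contDiff_id) (some a)

/-- the graph of a smooth function: same space, same atlas -/
def Imm.graph (M : Imm d ι X) (u : X → ℝ) (hu : M.Sm u) : Imm d (Option ι) X where
  x p := up (u p) (M.x p)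
  ch := M.ch
  mem := M.mem
  isChart p := by
    have h1 : ContDiffOn ℝ ∞ ((fun p => up (u p) (M.x p)) ∘ (M.ch p).symm) (M.ch p).target :=
      contDiff_up.comp_contDiffOn ((hu p).prodMk (M.isChart p).sm)
    refine ⟨h1, fun z hz => ?_⟩
    have h2 : DifferentiableAt ℝ ((fun p => up (u p) (M.x p)) ∘ (M.ch p).symm) z :=
      (h1.contDiffAt ((M.ch p).open_target.mem_nhds hz)).differentiableAt (by simp)
    have h3 := fderiv_comp z ((contDiff_down (ι := ι)).differentiable (by simp) _) h2
    have h4 : (down ∘ ((fun p => up (u p) (M.x p)) ∘ (M.ch p).symm)) = M.x ∘ (M.ch p).symm := rfl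
    have h5 := (M.isChart p).inj z hz
    rw [← h4, h3] at h5
    exact Injective.of_comp h5

/-- essential maps -/
def Ess {k : ℕ} (om : X → ℝ) (a : Fin k → X → ℝ) : Prop :=
  ∀ b : Fin k → X → ℝ, (∀ i, Continuous (b i)) → (∀ p, om p = 0 → ∀ i, b i p = a i p) →
    ∃ p, om p ≠ 0 ∧ ∀ i, b i p = 0

end Crest.Agent.N222

end
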