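import Crest.Agent.N222.F.Graph

/-!
# Row 222, framework: constructions of charts (statements by helper10, proofs by helper64)
-/

set_option autoImplicit false
set_option linter.unusedSectionVars false
open MeasureTheory Set Filter Topology Function
open scoped ContDiff InnerProductSpace RealInnerProductSpace ENNReal

noncomputable section

namespace Crest.Agent.N222

variable {d m : ℕ} {ι : Type} [Fintype ι] {X Y : Type} [TopologicalSpace X] [TopologicalSpace Y]

/-! ### general lemmas -/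

theorem isChart_of_eqOn {y : Y → E ι} {c : OpenPartialHomeomorph Y (E (Fin m))}
    {g : E (Fin m) → E ι} (hg : ContDiffOn ℝ ∞ g c.target)
    (hi : ∀ z ∈ c.target, Injective (fderiv ℝ g z)) (h : ∀ z ∈ c.target, y (c.symm z) = g z) :
    IsChart y c := by
  refine ⟨hg.congr h, fun z hz => ?_⟩
  have h1 : y ∘ c.symm =ᶠ[𝓝 z] g := eventually_of_mem (c.open_target.mem_nhds hz) h
  rw [h1.fderiv_eq]
  exact hi z hz

theorem IsChart.of_eqOn {x : X → E ι} {y : Y → E ι} {c : OpenPartialHomeomorph X (E (Fin d))}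
    {c' : OpenPartialHomeomorph Y (E (Fin d))} (hc : IsChart x c) (hs : c'.target ⊆ c.target)
    (h : ∀ z ∈ c'.target, y (c'.symm z) = x (c.symm z)) : IsChart y c' :=
  isChart_of_eqOn (hc.sm.mono hs) (fun z hz => hc.inj z (hs hz)) h

theorem IsChart.contDiffAt {x : X → E ι} {c : OpenPartialHomeomorph X (E (Fin d))}
    (hc : IsChart x c) {z : E (Fin d)} (hz : z ∈ c.target) : ContDiffAt ℝ ∞ (x ∘ c.symm) z :=
  hc.sm.contDiffAt (c.open_target.mem_nhds hz)

theorem IsChart.hasFDerivAt {x : X → E ι} {c : OpenPartialHomeomorph X (E (Fin d))}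
    (hc : IsChart x c) {z : E (Fin d)} (hz : z ∈ c.target) :
    HasFDerivAt (x ∘ c.symm) (fderiv ℝ (x ∘ c.symm) z) z :=
  ((hc.contDiffAt hz).differentiableAt (by simp)).hasFDerivAt

theorem det_ne_zero_of_inj {T : E (Fin d) →L[ℝ] E (Fin d)} (h : Injective T) : T.det ≠ 0 :=
  fun h0 => LinearMap.det_eq_zero_iff_ker_ne_bot.1 h0 (LinearMap.ker_eq_bot.2 h)

/-- inverse function theorem -/
theorem exists_localDiffeo {g : E (Fin d) → E (Fin d)} {U : Set (E (Fin d))} (hU : IsOpen U)
    (hg : ContDiffOn ℝ ∞ g U) {z : E (Fin d)} (hz : z ∈ U) (hi : Injective (fderiv ℝ g z)) :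
    ∃ G : OpenPartialHomeomorph (E (Fin d)) (E (Fin d)), z ∈ G.source ∧ G.source ⊆ U ∧
      (∀ w, G w = g w) ∧ ContDiffOn ℝ ∞ G G.source ∧ ContDiffOn ℝ ∞ G.symm G.target := by
  have hn : (∞ : WithTop ℕ∞) ≠ 0 := by simp
  have hc : ContinuousOn (fun w => (fderiv ℝ g w).det) U :=
    contDiff_det.continuous.comp_continuousOn (hg.continuousOn_fderiv_of_isOpen hU (by simp))
  have hV : IsOpen (U ∩ (fun w => (fderiv ℝ g w).det) ⁻¹' {0}ᶜ) :=
    hc.isOpen_inter_preimage hU isOpen_compl_singleton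
  have hd : ∀ w ∈ U, ∀ h : (fderiv ℝ g w).det ≠ 0, HasFDerivAt g
      ((fderiv ℝ g w).toContinuousLinearEquivOfDetNeZero h : E (Fin d) →L[ℝ] E (Fin d)) w :=
    fun w hw h => by
      rw [ContinuousLinearMap.coe_toContinuousLinearEquivOfDetNeZero]
      exact ((hg.contDiffAt (hU.mem_nhds hw)).differentiableAt hn).hasFDerivAt
  have hz' := hg.contDiffAt (hU.mem_nhds hz)
  have h0 := det_ne_zero_of_inj hi
  refine ⟨(hz'.toOpenPartialHomeomorph g (hd z hz h0) hn).restrOpen _ hV,
    ⟨hz'.mem_toOpenPartialHomeomorph_source (hd z hz h0) hn, hz, h0⟩, fun w hw => hw.2.1,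
    fun w => rfl, hg.mono fun w hw => hw.2.1, fun w hw => ?_⟩
  have h1 := OpenPartialHomeomorph.map_target _ hw
  exact (OpenPartialHomeomorph.contDiffAt_symm _ hw (hd _ h1.2.1 h1.2.2)
    (hg.contDiffAt (hU.mem_nhds h1.2.1))).contDiffWithinAt

/-- a map with invertible differential is a chart -/
theorem IsChart.exists_rechart {x : X → E ι} {c : OpenPartialHomeomorph X (E (Fin d))}
    (hc : IsChart x c) {p : X} (hp : p ∈ c.source) {ψ : X → E (Fin d)}
    (hψ : ContDiffOn ℝ ∞ (ψ ∘ c.symm) c.target) (hi : Injective (fderiv ℝ (ψ ∘ c.symm) (c p))) :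
    ∃ e : OpenPartialHomeomorph X (E (Fin d)), IsChart x e ∧ p ∈ e.source ∧
      e.source ⊆ c.source ∧ ∀ q, e q = ψ q := by
  obtain ⟨G, h1, -, h3, h4, h5⟩ := exists_localDiffeo c.open_target hψ (c.map_source hp) hi
  have he := hc.trans G h4 h5
  have hq : ∀ q ∈ (c.trans G).source, ψ q = (c.trans G) q := fun q hq => by
    change _ = G (c q)
    rw [h3, comp_apply, c.left_inv hq.1]
  refine ⟨{ toFun := ψ
            invFun := (c.trans G).symm
            source := (c.trans G).source
            target := (c.trans G).target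
            map_source' := fun q h => by rw [hq q h]; exact (c.trans G).map_source h
            map_target' := fun z h => (c.trans G).map_target h
            left_inv' := fun q h => by rw [hq q h]; exact (c.trans G).left_inv h
            right_inv' := fun z h => by
              rw [hq _ ((c.trans G).map_target h)]; exact (c.trans G).right_inv h
            open_source := (c.trans G).open_source
            open_target := (c.trans G).open_target
            continuousOn_toFun := (c.trans G).continuousOn.congr hq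
            continuousOn_invFun := (c.trans G).continuousOn_symm },
    ⟨he.sm, he.inj⟩, ⟨hp, h1⟩, fun q h => h.1, fun _ => rfl⟩

theorem exists_isometry_range {J : E (Fin d) →L[ℝ] E ι} (hJ : Injective J) :
    ∃ L : E (Fin d) →ₗᵢ[ℝ] E ι, range L = range J := by
  set V := LinearMap.range (J : E (Fin d) →ₗ[ℝ] E ι) with hV
  have hd : Module.finrank ℝ V = d := by
    rw [hV, LinearMap.finrank_range_of_inj hJ]; simp
  let b : OrthonormalBasis (Fin d) ℝ V := (stdOrthonormalBasis ℝ V).reindex (finCongr hd)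
  refine ⟨V.subtypeₗᵢ.comp b.repr.symm.toLinearIsometry, ?_⟩
  ext w
  constructor
  · rintro ⟨z, rfl⟩
    exact (b.repr.symm z).2
  · intro h
    exact ⟨b.repr ⟨w, h⟩, by simp⟩

theorem adjoint_isometry_apply {κ : Type} [Fintype κ] (L : E ι →ₗᵢ[ℝ] E κ) (v : E ι) :
    ContinuousLinearMap.adjoint L.toContinuousLinearMap (L v) = v :=
  congrArg (fun T : E ι →L[ℝ] E ι => T v) L.adjoint_comp_self

/-! ### constructions -/

/-- quotients -/
theorem Imm.exists_quot (M : Imm d ι X) (π : X → Y) (hπ : IsLocalHomeomorph π) (hs : Surjective π)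
    (hx : ∀ p p', π p = π p' → M.x p = M.x p') : ∃ N : Imm d ι Y, ∀ p, N.x (π p) = M.x p := by
  choose φ h1 h2 using hπ
  have h3 : ∀ p, M.x (surjInv hs (π p)) = M.x p := fun p => hx _ _ (surjInv_eq hs _)
  refine ⟨⟨fun y => M.x (surjInv hs y), fun y => (φ (surjInv hs y)).symm.trans (M.ch (surjInv hs y)),
    fun y => ?_, fun y => (M.isChart (surjInv hs y)).of_eqOn (fun z hz => hz.1) fun z _ => ?_⟩, h3⟩
  · have h4 : φ (surjInv hs y) (surjInv hs y) = y := by
      rw [← h2]; exact surjInv_eq hs y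
    refine ⟨?_, ?_⟩
    · have := (φ _).map_source (h1 (surjInv hs y))
      rwa [h4] at this
    · have := (φ _).left_inv (h1 (surjInv hs y))
      rw [h4] at this
      change (φ (surjInv hs y)).symm y ∈ (M.ch (surjInv hs y)).source
      rw [this]; exact M.mem _
  · change M.x (surjInv hs (φ (surjInv hs y) ((M.ch (surjInv hs y)).symm z))) = _
    rw [← h2, h3]

/-- post-composition with a linear isometry of the ambient space -/
theorem Imm.exists_map {κ : Type} [Fintype κ] (M : Imm d ι X) (L : E ι →ₗᵢ[ℝ] E κ) (y : E κ) :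
    ∃ N : Imm d κ X, N.ch = M.ch ∧ (∀ p, N.x p = L (M.x p) + y) ∧
      ∀ (f : X → ℝ) p w, N.td f p w =
        M.td f p (ContinuousLinearMap.adjoint L.toContinuousLinearMap w) := by
  have hd : ∀ p, ∀ z ∈ (M.ch p).target, fderiv ℝ ((fun q => L (M.x q) + y) ∘ (M.ch p).symm) z =
      L.toContinuousLinearMap ∘L fderiv ℝ (M.x ∘ (M.ch p).symm) z := fun p z hz =>
    ((L.toContinuousLinearMap.hasFDerivAt.comp z ((M.isChart p).hasFDerivAt hz)).add_const y).fderiv
  refine ⟨⟨fun q => L (M.x q) + y, M.ch, M.mem, fun p => ⟨?_, fun z hz => ?_⟩⟩, rfl, fun _ => rfl,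
    fun f p w => ?_⟩
  · exact (L.toContinuousLinearMap.contDiff.comp_contDiffOn (M.isChart p).sm).add contDiffOn_const
  · rw [hd p z hz, ContinuousLinearMap.coe_comp]
    exact L.injective.comp ((M.isChart p).inj z hz)
  · have hz := (M.ch p).map_source (M.mem p)
    simp only [Imm.td, Imm.J, ContinuousLinearMap.comp_apply]
    rw [hd p _ hz]
    congr 1
    refine adj_Lam_eq_of (by
      rw [ContinuousLinearMap.coe_comp]
      exact L.injective.comp ((M.isChart p).inj _ hz)) fun v => ?_
    have h := inner_sub_proj ((M.isChart p).inj _ hz) v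
      (ContinuousLinearMap.adjoint L.toContinuousLinearMap w)
    rw [inner_sub_right, ContinuousLinearMap.adjoint_inner_right] at h
    rw [inner_sub_right]
    simp only [ContinuousLinearMap.comp_apply, LinearIsometry.coe_toContinuousLinearMap,
      L.inner_map_map] at h ⊢
    exact h

/-- `(t, z)` -/
def cons0 (t : ℝ) (z : E (Fin m)) : E (Fin (m + 1)) := WithLp.toLp 2 (Fin.cons t z.ofLp)

/-- forget the coordinate `0` -/
def tail0 (z : E (Fin (m + 1))) : E (Fin m) := WithLp.toLp 2 (Fin.tail z.ofLp)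

@[simp] theorem cons0_zero (t : ℝ) (z : E (Fin m)) : cons0 t z 0 = t := rfl
@[simp] theorem cons0_succ (t : ℝ) (z : E (Fin m)) (i : Fin m) : cons0 t z i.succ = z i := rfl
@[simp] theorem tail0_apply (z : E (Fin (m + 1))) (i : Fin m) : tail0 z i = z i.succ := rfl
@[simp] theorem tail0_cons0 (t : ℝ) (z : E (Fin m)) : tail0 (cons0 t z) = z := rfl

theorem cons0_tail0 (z : E (Fin (m + 1))) : cons0 (z 0) (tail0 z) = z := by
  ext i; refine Fin.cases rfl (fun _ => rfl) i

theorem contDiff_cons0 : ContDiff ℝ ∞ fun q : ℝ × E (Fin m) => cons0 q.1 q.2 :=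
  contDiff_euclidean.2 fun i => Fin.cases contDiff_fst
    (fun k => (contDiff_euclidean.1 contDiff_snd) k) i

theorem contDiff_tail0 : ContDiff ℝ ∞ (tail0 : E (Fin (m + 1)) → E (Fin m)) :=
  contDiff_euclidean.2 fun i => (contDiff_euclidean.1 contDiff_id) i.succ

/-- `cons0` as a linear map -/
def consL (m : ℕ) : (ℝ × E (Fin m)) →L[ℝ] E (Fin (m + 1)) where
  toFun q := cons0 q.1 q.2
  map_add' _ _ := by ext i; exact Fin.cases rfl (fun _ => rfl) i
  map_smul' _ _ := by ext i; exact Fin.cases rfl (fun _ => rfl) i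
  cont := contDiff_cons0.continuous

/-- `tail0` as a linear map -/
def tailL (m : ℕ) : E (Fin (m + 1)) →L[ℝ] E (Fin m) where
  toFun := tail0
  map_add' _ _ := rfl
  map_smul' _ _ := rfl
  cont := contDiff_tail0.continuous

/-- `up` as a linear map -/
def upL (ι : Type) [Fintype ι] : (ℝ × E ι) →L[ℝ] E (Option ι) where
  toFun q := up q.1 q.2
  map_add' _ _ := by ext c; cases c <;> rfl
  map_smul' _ _ := by ext c; cases c <;> rfl
  cont := contDiff_up.continuous

@[simp] theorem consL_apply (q : ℝ × E (Fin m)) : consL m q = cons0 q.1 q.2 := rfl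
@[simp] theorem tailL_apply (z : E (Fin (m + 1))) : tailL m z = tail0 z := rfl
@[simp] theorem upL_apply (q : ℝ × E ι) : upL ι q = up q.1 q.2 := rfl

theorem contDiff_cons0_right (t : ℝ) : ContDiff ℝ ∞ (cons0 t : E (Fin m) → E (Fin (m + 1))) :=
  contDiff_cons0.comp (contDiff_const.prodMk contDiff_id)

theorem hasFDerivAt_cons0 (t : ℝ) (z : E (Fin m)) : HasFDerivAt (cons0 t)
    (consL m ∘L ContinuousLinearMap.inr ℝ ℝ (E (Fin m))) z :=
  (consL m).hasFDerivAt.comp z (hasFDerivAt_prodMk_right t z)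

/-- no hypothesis on `φ` -/
theorem fderiv_comp_tail0 {F : Type} [NormedAddCommGroup F] [NormedSpace ℝ F]
    (φ : E (Fin m) → F) (z : E (Fin (m + 1))) :
    fderiv ℝ (φ ∘ tail0) z = fderiv ℝ φ (tail0 z) ∘L tailL m := by
  by_cases h : DifferentiableAt ℝ φ (tail0 z)
  · exact (h.hasFDerivAt.comp z (tailL m).hasFDerivAt).fderiv
  · rw [fderiv_zero_of_not_differentiableAt h, fderiv_zero_of_not_differentiableAt fun h' => h ?_]
    · simp
    · rw [← cons0_tail0 z] at h'
      exact h'.comp (tail0 z) (hasFDerivAt_cons0 (z 0) (tail0 z)).differentiableAt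

/-- the chart of a slice -/
theorem exists_sliceChart {x : X → E ι} {S : Set X} {e : OpenPartialHomeomorph X (E (Fin (m + 1)))}
    (he : IsChart x e) (hS : ∀ p ∈ e.source, p ∈ S ↔ e p 0 = 0) (q0 : S) :
    ∃ e' : OpenPartialHomeomorph S (E (Fin m)), IsChart (fun q : S => x q) e' ∧
      e'.source = Subtype.val ⁻¹' e.source ∧ e'.target = {z | cons0 0 z ∈ e.target} ∧
      (∀ q, e' q = tail0 (e q)) ∧ ∀ z ∈ e'.target, (e'.symm z : X) = e.symm (cons0 0 z) := by
  classical
  have h1 : ∀ z : E (Fin m), cons0 0 z ∈ e.target → e.symm (cons0 0 z) ∈ S := fun z hz =>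
    (hS _ (e.map_target hz)).2 (by rw [e.right_inv hz]; rfl)
  have h2 : ∀ q : S, (q : X) ∈ e.source → cons0 0 (tail0 (e q)) = e q := fun q hq => by
    rw [← (hS q hq).1 q.2, cons0_tail0]
  let g : E (Fin m) → S := fun z => if h : cons0 0 z ∈ e.target then ⟨_, h1 z h⟩ else q0
  have h3 : ∀ z, cons0 0 z ∈ e.target → (g z : X) = e.symm (cons0 0 z) := fun z hz => by
    simp only [g, dif_pos hz]
  have hc := (contDiff_cons0_right (m := m) 0).continuous
  let e' : OpenPartialHomeomorph S (E (Fin m)) :=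
    { toFun := fun q => tail0 (e q)
      invFun := g
      source := Subtype.val ⁻¹' e.source
      target := {z | cons0 0 z ∈ e.target}
      map_source' := fun q hq => by
        change cons0 0 (tail0 (e q)) ∈ e.target
        rw [h2 q hq]; exact e.map_source hq
      map_target' := fun z hz => by
        change (g z : X) ∈ e.source
        rw [h3 z hz]; exact e.map_target hz
      left_inv' := fun q hq => Subtype.ext (by
        rw [h3 _ (by rw [h2 q hq]; exact e.map_source hq), h2 q hq, e.left_inv hq])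
      right_inv' := fun z hz => by rw [h3 z hz, e.right_inv hz]; rfl
      open_source := e.open_source.preimage continuous_subtype_val
      open_target := e.open_target.preimage hc
      continuousOn_toFun := contDiff_tail0.continuous.comp_continuousOn
        (e.continuousOn.comp continuous_subtype_val.continuousOn fun _ h => h)
      continuousOn_invFun := IsInducing.subtypeVal.continuousOn_iff.2
        ((e.continuousOn_symm.comp hc.continuousOn fun _ h => h).congr h3) }
  refine ⟨e', isChart_of_eqOn (g := (x ∘ e.symm) ∘ cons0 0)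
    (he.sm.comp (contDiff_cons0_right 0).contDiffOn fun _ h => h) (fun z hz => ?_)
    (fun z hz => congrArg x (h3 z hz)), rfl, rfl, fun _ => rfl, h3⟩
  rw [((he.hasFDerivAt hz).comp z (hasFDerivAt_cons0 0 z)).fderiv, ContinuousLinearMap.coe_comp]
  exact (he.inj _ hz).comp fun v w h => congrArg tail0 h

theorem Imm.exists_slice (M : Imm (m + 1) ι X) {S : Set X}
    (h : ∀ q ∈ S, ∃ e : OpenPartialHomeomorph X (E (Fin (m + 1))), IsChart M.x e ∧ q ∈ e.source ∧
      ∀ p ∈ e.source, p ∈ S ↔ e p 0 = 0) : ∃ N : Imm m ι S, ∀ q, N.x q = M.x q := by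
  have h' : ∀ q : S, ∃ e' : OpenPartialHomeomorph S (E (Fin m)),
      IsChart (fun q : S => M.x q) e' ∧ q ∈ e'.source := fun q => by
    obtain ⟨e, he, hq, hS⟩ := h q q.2
    obtain ⟨e', h1, h2, -⟩ := exists_sliceChart he hS q
    exact ⟨e', h1, h2 ▸ hq⟩
  choose c h1 h2 using h'
  exact ⟨⟨fun q => M.x q, c, h2, h1⟩, fun _ => rfl⟩

/-- a function with non-zero differential is a coordinate -/
theorem Imm.exists_chart_coord (M : Imm (m + 1) ι X) {f : X → ℝ} (hf : M.Sm f) {q : X}
    (hq : M.td f q ≠ 0) : ∃ e : OpenPartialHomeomorph X (E (Fin (m + 1))), IsChart M.x e ∧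
      q ∈ e.source ∧ ∀ p ∈ e.source, e p 0 = f p := by
  set c := M.ch q with hc
  have hz : c q ∈ c.target := c.map_source (M.mem q)
  set l := fderiv ℝ (f ∘ c.symm) (c q) with hl
  obtain ⟨i, hi⟩ : ∃ i, l (ee i) ≠ 0 := by
    by_contra h
    push Not at h
    have h0 : l = 0 := by
      ext1 v
      rw [eq_sum_ee v]
      simp [h]
    exact hq (by rw [Imm.td, ← hc, ← hl, h0]; simp)
  let R : E (Fin (m + 1)) →L[ℝ] E (Fin m) :=
    { toFun := fun z => WithLp.toLp 2 fun k => z (i.succAbove k)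
      map_add' := fun _ _ => rfl
      map_smul' := fun _ _ => rfl
      cont := (contDiff_euclidean.2 fun k =>
        (contDiff_euclidean.1 (contDiff_id (𝕜 := ℝ) (n := ∞))) (i.succAbove k)).continuous }
  have h1 : ∀ z ∈ c.target, ((fun p => cons0 (f p) (R (c p))) ∘ c.symm) z =
      (consL m ∘ fun z => ((f ∘ c.symm) z, R z)) z := fun z hz => by
    simp [c.right_inv hz]
  have h2 : HasFDerivAt (consL m ∘ fun z => ((f ∘ c.symm) z, R z)) (consL m ∘L l.prod R) (c q) :=
    (consL m).hasFDerivAt.comp _ ((hf.diffAt q).hasFDerivAt.prodMk R.hasFDerivAt)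
  obtain ⟨e, he, hqe, -, h3⟩ := (M.isChart q).exists_rechart (M.mem q)
    (ψ := fun p => cons0 (f p) (R (c p)))
    (((consL m).contDiff.comp_contDiffOn ((hf q).prodMk R.contDiff.contDiffOn)).congr h1) (by
      rw [Filter.EventuallyEq.fderiv_eq (eventually_of_mem (c.open_target.mem_nhds hz) h1),
        h2.fderiv]
      refine (injective_iff_map_eq_zero _).2 fun v hv => ?_
      have h4 : l v = 0 := congrArg (fun z : E (Fin (m + 1)) => z 0) hv
      have h5 : ∀ k, v (i.succAbove k) = 0 := fun k =>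
        congrArg (fun z : E (Fin (m + 1)) => z k.succ) hv
      have h6 : v = v i • ee i := by
        ext k
        refine Fin.succAboveCases i ?_ (fun k => ?_) k
        · simp
        · simp [h5]
      rw [h6, map_smul, smul_eq_mul, mul_eq_zero] at h4
      rw [h6, h4.resolve_right hi, zero_smul])
  exact ⟨e, he, hqe, fun p _ => by rw [h3]; rfl⟩

/-- regular level sets -/
theorem Imm.exists_level (M : Imm (m + 1) ι X) {f : X → ℝ} (hf : M.Sm f)
    (h : ∀ q, f q = 0 → M.td f q ≠ 0) : ∃ N : Imm m ι {q | f q = 0}, ∀ q, N.x q = M.x q :=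
  M.exists_slice fun q hq => by
    obtain ⟨e, he, hqe, hc⟩ := M.exists_chart_coord hf (h q hq)
    exact ⟨e, he, hqe, fun p hp => by rw [hc p hp]; rfl⟩

/-- the chart of a cylinder -/
def prodChart (c : OpenPartialHomeomorph X (E (Fin d))) :
    OpenPartialHomeomorph (X × ℝ) (E (Fin (d + 1))) where
  toFun q := cons0 q.2 (c q.1)
  invFun z := (c.symm (tail0 z), z 0)
  source := Prod.fst ⁻¹' c.source
  target := tail0 ⁻¹' c.target
  map_source' _ hq := c.map_source hq
  map_target' _ hz := c.map_target hz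
  left_inv' _ hq := Prod.ext (c.left_inv hq) rfl
  right_inv' z hz := by
    change cons0 (z 0) (c (c.symm (tail0 z))) = z
    rw [c.right_inv hz, cons0_tail0]
  open_source := c.open_source.preimage continuous_fst
  open_target := c.open_target.preimage contDiff_tail0.continuous
  continuousOn_toFun := contDiff_cons0.continuous.comp_continuousOn
    (continuousOn_snd.prodMk (c.continuousOn.comp continuousOn_fst fun _ h => h))
  continuousOn_invFun :=
    (c.continuousOn_symm.comp contDiff_tail0.continuous.continuousOn fun _ h => h).prodMk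
      (EuclideanSpace.proj (𝕜 := ℝ) (0 : Fin (d + 1))).continuous.continuousOn

/-- the cylinder -/
theorem Imm.exists_prodR (M : Imm d ι X) : ∃ N : Imm (d + 1) (Option ι) (X × ℝ),
    (∀ q, N.x q = up q.2 (M.x q.1)) ∧ (∀ f : X → ℝ, M.Sm f → N.Sm fun q => f q.1) ∧
      (∀ q w, N.td (fun q => q.2) q w = w none) ∧
      ∀ (f : X → ℝ) q w, N.td (fun q => f q.1) q w = M.td f q.1 (down w) := by
  classical
  let π0 : E (Fin (d + 1)) →L[ℝ] ℝ := EuclideanSpace.proj 0
  have hd : ∀ p, ∀ z ∈ (prodChart (M.ch p)).target,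
      fderiv ℝ ((fun q : X × ℝ => up q.2 (M.x q.1)) ∘ (prodChart (M.ch p)).symm) z =
        upL ι ∘L π0.prod (fderiv ℝ (M.x ∘ (M.ch p).symm) (tail0 z) ∘L tailL d) := fun p z hz =>
    ((upL ι).hasFDerivAt.comp z (π0.hasFDerivAt.prodMk
      (((M.isChart p).hasFDerivAt hz).comp z (tailL d).hasFDerivAt))).fderiv
  have hi : ∀ J : E (Fin d) →L[ℝ] E ι, Injective J → Injective (upL ι ∘L π0.prod (J ∘L tailL d)) :=
    fun J hJ v w h => by
      have h1 : v 0 = w 0 := congrArg (fun y : E (Option ι) => y none) h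
      have h2 : tail0 v = tail0 w := hJ (congrArg down h)
      rw [← cons0_tail0 v, h1, h2, cons0_tail0]
  have hL : ∀ J : E (Fin d) →L[ℝ] E ι, Injective J → ∀ w,
      ContinuousLinearMap.adjoint (Lam (upL ι ∘L π0.prod (J ∘L tailL d))) w =
        cons0 (w none) (ContinuousLinearMap.adjoint (Lam J) (down w)) := fun J hJ w => by
    refine adj_Lam_eq_of (hi J hJ) fun v => ?_
    have h := inner_sub_proj hJ (tail0 v) (down w)
    change ⟪up (v 0) (J (tail0 v)),
      w - up (w none) (J (ContinuousLinearMap.adjoint (Lam J) (down w)))⟫ = 0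
    conv_lhs => rw [← up_down w]
    simp only [up_none, down_up]
    rw [up_sub, inner_up, h]
    simp
  have hs : ∀ {F : Type} [NormedAddCommGroup F] [NormedSpace ℝ F] {f : X → F}, M.Sm f → ∀ p,
      ContDiffOn ℝ ∞ ((f ∘ (M.ch p).symm) ∘ tail0) (prodChart (M.ch p)).target :=
    fun hf p => (hf p).comp contDiff_tail0.contDiffOn fun _ h => h
  let N : Imm (d + 1) (Option ι) (X × ℝ) :=
    ⟨fun q => up q.2 (M.x q.1), fun q => prodChart (M.ch q.1), fun q => M.mem q.1, fun q =>
      ⟨contDiff_up.comp_contDiffOn (π0.contDiff.contDiffOn.prodMk (hs M.sm_x q.1)), fun z hz => by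
        rw [hd _ z hz]; exact hi _ ((M.isChart q.1).inj _ hz)⟩⟩
  have hJ : ∀ q w, ContinuousLinearMap.adjoint (Lam (N.J q)) w =
      cons0 (w none) (ContinuousLinearMap.adjoint (Lam (M.J q.1)) (down w)) := fun q w => by
    have h1 : N.J q = upL ι ∘L π0.prod (M.J q.1 ∘L tailL d) :=
      hd q.1 _ ((N.ch q).map_source (N.mem q))
    rw [h1, hL _ (M.J_inj q.1)]
  refine ⟨N, fun _ => rfl, fun f hf q => hs hf q.1, fun q w => ?_, fun f q w => ?_⟩
  · have h1 : fderiv ℝ ((fun q : X × ℝ => q.2) ∘ (N.ch q).symm) (N.ch q q) = π0 :=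
      π0.hasFDerivAt.fderiv
    rw [Imm.td, ContinuousLinearMap.comp_apply, h1, hJ]
    rfl
  · have h1 : fderiv ℝ ((fun q : X × ℝ => f q.1) ∘ (N.ch q).symm) (N.ch q q) =
        fderiv ℝ (f ∘ (M.ch q.1).symm) (M.ch q.1 q.1) ∘L tailL d :=
      fderiv_comp_tail0 (f ∘ (M.ch q.1).symm) _
    rw [Imm.td, ContinuousLinearMap.comp_apply, h1, hJ]
    rfl

/-- the orthogonal projection onto the tangent space is a chart -/
theorem Imm.exists_proj_chart (M : Imm d ι X) (p : X) :
    ∃ (e : OpenPartialHomeomorph X (E (Fin d))) (L : E (Fin d) →ₗᵢ[ℝ] E ι), IsChart M.x e ∧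
      p ∈ e.source ∧ (∀ w, M.PL p w = w ↔ w ∈ range L) ∧
      (∀ q, e q = ContinuousLinearMap.adjoint L.toContinuousLinearMap (M.x q - M.x p)) ∧
      fderiv ℝ (M.x ∘ e.symm) 0 = L.toContinuousLinearMap := by
  obtain ⟨L, hL⟩ := exists_isometry_range (M.J_inj p)
  set A := ContinuousLinearMap.adjoint L.toContinuousLinearMap with hA
  have hP : ∀ w, M.PL p w = w ↔ w ∈ range L := fun w => by
    rw [hL]
    refine ⟨fun h => h ▸ Imm.PL_mem_range (M.isChart p) (M.mem p) w, ?_⟩
    rintro ⟨v, rfl⟩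
    exact Imm.PL_chart (M.isChart p) (M.mem p) v
  have hd : ∀ {c : OpenPartialHomeomorph X (E (Fin d))}, IsChart M.x c → ∀ z ∈ c.target,
      fderiv ℝ ((fun q => A (M.x q - M.x p)) ∘ c.symm) z = A ∘L fderiv ℝ (M.x ∘ c.symm) z :=
    fun hc z hz => (A.hasFDerivAt.comp z ((hc.hasFDerivAt hz).sub_const (M.x p))).fderiv
  obtain ⟨e, he, hp, -, h3⟩ := (M.isChart p).exists_rechart (M.mem p)
    (ψ := fun q => A (M.x q - M.x p))
    (A.contDiff.comp_contDiffOn ((M.isChart p).sm.sub contDiffOn_const)) (by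
      rw [hd (M.isChart p) _ ((M.ch p).map_source (M.mem p))]
      refine (injective_iff_map_eq_zero _).2 fun v hv => ?_
      obtain ⟨u, hu⟩ : M.J p v ∈ range L := hL ▸ mem_range_self v
      have h1 : A (M.J p v) = 0 := hv
      rw [← hu, hA, adjoint_isometry_apply] at h1
      rw [h1, map_zero] at hu
      exact (injective_iff_map_eq_zero _).1 (M.J_inj p) v hu.symm)
  have h0 : e p = 0 := by rw [h3]; simp
  refine ⟨e, L, he, hp, hP, h3, ?_⟩
  ext1 v
  rw [← h0]
  obtain ⟨u, hu⟩ := (hP _).1 (Imm.PL_chart he hp v)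
  have h1 : (fun q => A (M.x q - M.x p)) ∘ e.symm =ᶠ[𝓝 (e p)] id := by
    filter_upwards [e.eventually_right_inverse (e.map_source hp)] with z hz
    rw [comp_apply, ← h3, hz]; rfl
  have h2 := hd he _ (e.map_source hp)
  rw [h1.fderiv_eq, fderiv_id] at h2
  have h4 : v = A (fderiv ℝ (M.x ∘ e.symm) (e p) v) :=
    congrArg (fun T : E (Fin d) →L[ℝ] E (Fin d) => T v) h2
  rw [← hu, hA, adjoint_isometry_apply] at h4
  rw [← hu, h4]; rfl

end Crest.Agent.N222

end
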